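import Vale.Agent.P232.Uniq.Ball.Knothe
import Vale.Agent.P232.Uniq.Moment

/-!
A periodic profile attaining the model value is a translate of the model profile.
-/

open MeasureTheory Set Filter Function Real intervalIntegral
open scoped Topology

namespace Vale.Agent.P232.BallUniq.Model

variable (M : Model) {f : ℝ → ℝ} {P : ℝ}

lemma dnear_window {x r : ℝ} (hr : r ≤ 1 / 2) (h1 : r - 1 ≤ x) (h2 : x ≤ 1 - r) :
    (|x| < r → dnear x = x) ∧ (r ≤ |x| → r ≤ |dnear x|) := by
  constructor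
  · intro h
    obtain ⟨h3, h4⟩ := abs_lt.1 h
    have : round x = 0 := by
      rw [round_eq, Int.floor_eq_iff]; push_cast; constructor <;> linarith
    simp [dnear, this]
  · intro h
    unfold dnear
    rcases lt_trichotomy (round x) 0 with hn | hn | hn
    · have : ((round x : ℤ) : ℝ) ≤ -1 := by exact_mod_cast (by omega : round x ≤ -1)
      exact le_trans (by linarith) (le_abs_self _)
    · simpa [hn] using h
    · have : (1 : ℝ) ≤ ((round x : ℤ) : ℝ) := by exact_mod_cast (by omega : 1 ≤ round x)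
      exact le_trans (by linarith) (neg_le_abs _)

/-- An interior zero between two windows of positive mass contradicts equality. -/
theorem no_gap {r : ℝ} (hm : Measurable f) (hp : Periodic f 1) (h01 : ∀ x, f x ∈ Icc (0 : ℝ) 1)
    (hr : 0 < r) (hv : (∫ s in (0 : ℝ)..1, f s) = 2 * M.q * M.ρ r)
    {F K : ℕ → ℝ → ℝ} (hS : IsSmoothing f (fun x => M.L (f x)) P 4 F K)
    (hP : P ≤ M.k * (∫ s in (0 : ℝ)..1, f s) / r) {t : ℕ → ℝ} {a m : ℝ}
    (ht : ∀ k, Tendsto (fun n => F n (t k)) atTop (𝓝 (f (t k))))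
    (hta : Tendsto t atTop (𝓝 a)) (hft : Tendsto (fun k => f (t k)) atTop (𝓝 0))
    (hma : a < m) (hma' : m < a + 1) (hlm : Tendsto (fun n => F n m) atTop (𝓝 (f m)))
    (hfm : f m = 0) (h1 : 0 < ∫ s in a..m, f s)
    (h2 : (∫ s in a..m, f s) < ∫ s in (0 : ℝ)..1, f s) : False := by
  set v := ∫ s in (0 : ℝ)..1, f s with hvd
  have hC : ∀ x, |f x| ≤ 1 := fun x => by rw [abs_of_nonneg (h01 x).1]; exact (h01 x).2
  have hfi := intervalIntegrable_of_bound hm hC
  set w := ∫ s in a..m, f s with hwd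
  have hT : Tendsto (fun R => 2 * M.q * M.ρ R) (𝓝[<] r) (𝓝 v) :=
    hv ▸ ((M.contρ.tendsto r).const_mul (2 * M.q)).mono_left nhdsWithin_le_nhds
  obtain ⟨R, ⟨⟨hR1, hR2⟩, hR0⟩, hRr⟩ := ((((hT.eventually_const_lt h2).and
    (hT.eventually_const_lt (show v - w < v by linarith))).and
    ((eventually_gt_nhds hr).filter_mono nhdsWithin_le_nhds)).and
    (eventually_mem_nhdsWithin : ∀ᶠ R in 𝓝[<] r, R ∈ Iio r)).exists
  have hG := ((continuous_primitive hfi a).tendsto a).comp hta
  rw [intervalIntegral.integral_same] at hG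
  have hsplit : ∀ k, ∫ s in t k..m, f s = w - ∫ s in a..t k, f s := fun k =>
    (integral_interval_sub_left (hfi a m) (hfi a (t k))).symm
  have hper : ∀ k, (∫ s in t k..m, f s) + ∫ s in m..(t k + 1), f s = v := fun k => by
    rw [integral_add_adjacent_intervals (hfi _ _) (hfi _ _), hp.intervalIntegral_add_eq (t k) 0,
      zero_add]
  have hlim : Tendsto (fun k => ∫ s in t k..m, f s) atTop (𝓝 w) := by
    simp only [hsplit]; simpa using hG.const_sub w
  have hev : ∀ᶠ k in atTop, M.k * v / R ≤ P + 2 * f (t k) := by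
    filter_upwards [hta.eventually_lt_const hma, hta.eventually_const_lt
      (show m - 1 < a by linarith), hlim.eventually_lt_const hR1,
      hlim.eventually_const_lt (show v - 2 * M.q * M.ρ R < w by linarith)] with k e1 e2 e3 e4
    have hw2 : ∫ s in m..(t k + 1), f s < 2 * M.q * M.ρ R := by linarith [hper k]
    have hb := M.two_windows hm hp h01 hS e1.le (by linarith : m ≤ t k + 1) (ht k) hlm hR0 e3 hw2
    have g1 := intervalIntegral.integral_nonneg (μ := volume) e1.le fun s hs =>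
      M.gain_nonneg hR0 (h01 s).1 (M.abs_pos_lt hfi (fun x => (h01 x).1) hR0 e3 hs)
    have g2 := intervalIntegral.integral_nonneg (μ := volume) (show m ≤ t k + 1 by linarith)
      fun s hs => M.gain_nonneg hR0 (h01 s).1 (M.abs_pos_lt hfi (fun x => (h01 x).1) hR0 hw2 hs)
    rw [hfm] at hb
    linarith
  have hb : M.k * v / R ≤ P + 2 * 0 := ge_of_tendsto ((hft.const_mul 2).const_add P) hev
  have : M.k * v / r < M.k * v / R :=
    div_lt_div_of_pos_left (mul_pos M.k_pos (h1.trans h2)) hR0 hRr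
  linarith

/-- Equality in the calibration: on every inner interval the defect vanishes. -/
theorem gain_zero {r : ℝ} (hm : Measurable f) (hp : Periodic f 1)
    (h01 : ∀ x, f x ∈ Icc (0 : ℝ) 1) (hr : 0 < r)
    (hv : (∫ s in (0 : ℝ)..1, f s) = 2 * M.q * M.ρ r)
    {F K : ℕ → ℝ → ℝ} (hS : IsSmoothing f (fun x => M.L (f x)) P 4 F K)
    (hP : P ≤ M.k * (∫ s in (0 : ℝ)..1, f s) / r) {t : ℕ → ℝ} {a a' b' : ℝ}
    (ht : ∀ k, Tendsto (fun n => F n (t k)) atTop (𝓝 (f (t k))))
    (hta : Tendsto t atTop (𝓝 a)) (hft : Tendsto (fun k => f (t k)) atTop (𝓝 0))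
    (ha : a < a') (hab : a' ≤ b') (hb : b' < a + 1) :
    ∀ᵐ s : ℝ, s ∈ Ioc a' b' → M.gain r (f s) (M.pos r f a (a + 1) s) = 0 := by
  set v := ∫ s in (0 : ℝ)..1, f s with hvd
  have hC : ∀ x, |f x| ≤ 1 := fun x => by rw [abs_of_nonneg (h01 x).1]; exact (h01 x).2
  have hfi := intervalIntegrable_of_bound hm hC
  have hper : ∀ x, ∫ s in x..(x + 1), f s = v := fun x => by
    rw [hp.intervalIntegral_add_eq x 0, zero_add]
  set R : ℕ → ℝ := fun k => r + 1 / ((k : ℝ) + 1) with hRd
  have hRr : ∀ k, r < R k := fun k => by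
    simp only [hRd]; exact lt_add_of_pos_right r (by positivity)
  have hR0 : ∀ k, 0 < R k := fun k => hr.trans (hRr k)
  have hRlim : Tendsto R atTop (𝓝 r) := by
    simpa [hRd] using (tendsto_one_div_add_atTop_nhds_zero_nat (𝕜 := ℝ)).const_add r
  have hρ := M.ρ_pos r hr
  have hvR : ∀ k, v < 2 * M.q * M.ρ (R k) := fun k => by
    rw [hv]; exact mul_lt_mul_of_pos_left (M.ρ_mono _ _ hr (hRr k)) (by linarith [M.q_pos])
  set τ : ℕ → ℝ → ℝ := fun k => M.pos (R k) f (t k) (t k + 1) with hτd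
  have hτlt : ∀ k, ∀ s ∈ Icc (t k) (t k + 1), |τ k s| < 1 := fun k s hs =>
    M.abs_pos_lt hfi (fun x => (h01 x).1) (hR0 k) (by rw [hper]; exact hvR k) hs
  set Γ : ℕ → ℝ → ℝ := fun k s => M.gain (R k) (f s) (τ k s) with hΓd
  have hΓi : ∀ k x y, IntervalIntegrable (Γ k) volume x y := fun k x y =>
    M.gain_intervalIntegrable hm h01 (hR0 k) (M.continuous_pos hfi _ _ _) (fun s => M.absQ _) x y
  set Γ0 : ℝ → ℝ := fun s => M.gain r (f s) (M.pos r f a (a + 1) s) with hΓ0
  have hin : ∀ᶠ k in atTop, t k < a' ∧ b' < t k + 1 :=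
    (hta.eventually_lt_const ha).and ((hta.add_const 1).eventually_const_lt hb)
  have hlimτ : ∀ s, Tendsto (fun k => τ k s) atTop (𝓝 (M.pos r f a (a + 1) s)) := fun s => by
    have hG := ((continuous_primitive hfi a).tendsto a).comp hta
    rw [intervalIntegral.integral_same] at hG
    have hspl : ∀ k, ∫ x in t k..s, f x = (∫ x in a..s, f x) - ∫ x in a..t k, f x := fun k =>
      (integral_interval_sub_left (hfi a s) (hfi a (t k))).symm
    have hnum : Tendsto (fun k => (∫ x in t k..s, f x) - (∫ x in t k..(t k + 1), f x) / 2) atTop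
        (𝓝 ((∫ x in a..s, f x) - (∫ x in a..(a + 1), f x) / 2)) := by
      simp only [hper, hspl]
      simpa using (hG.const_sub (∫ x in a..s, f x)).sub_const (v / 2)
    exact (M.contQ.tendsto _).comp (hnum.div ((M.contρ.tendsto r).comp hRlim) hρ.ne')
  have hlimΓ : ∀ s, Tendsto (fun k => Γ k s) atTop (𝓝 (Γ0 s)) := fun s => by
    have hκ := (M.contκ.tendsto _).comp (hlimτ s)
    have h1 := ((((hlimτ s).pow 2).const_sub 1).sqrt.mul hκ).mul_const (M.L (f s))
    have h2 : Tendsto (fun k => f s ^ 2 / M.ρ (R k)) atTop (𝓝 (f s ^ 2 / M.ρ r)) :=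
      (tendsto_const_nhds (x := f s ^ 2)).div ((M.contρ.tendsto r).comp hRlim) hρ.ne'
    have h3 := (hκ.const_mul (M.k * f s)).div hRlim hr.ne'
    exact ((h1.add h2).sub h3).div_const 2
  have hdct : Tendsto (fun k => ∫ s in a'..b', Γ k s) atTop (𝓝 (∫ s in a'..b', Γ0 s)) := by
    refine tendsto_integral_filter_of_dominated_convergence
      (fun _ => (8 + 1 / M.ρ r + 2 * M.k / r) / 2)
      (Eventually.of_forall fun k => (hΓi k a' b').def'.aestronglyMeasurable)
      (Eventually.of_forall fun k => ae_of_all _ fun s _ => ?_) intervalIntegrable_const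
      (ae_of_all _ fun s _ => hlimΓ s)
    rw [Real.norm_eq_abs]
    refine (M.abs_gain_le (hR0 k) (h01 s) (M.absQ _)).trans ?_
    have := M.k_pos
    have := M.ρ_mono _ _ hr (hRr k)
    gcongr
    exact (hRr k).le
  have hbound : ∀ᶠ k in atTop, ∫ s in a'..b', Γ k s ≤ P + 4 * f (t k) - M.k * v / R k := by
    filter_upwards [hin] with k ⟨e1, e2⟩
    have hb := M.two_windows hm hp h01 hS (le_refl (t k)) (by linarith : t k ≤ t k + 1) (ht k)
      (ht k) (hR0 k) (by rw [intervalIntegral.integral_same]; exact mul_pos (by linarith [M.q_pos]) (M.ρ_pos _ (hR0 k)))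
      (by rw [hper]; exact hvR k)
    rw [intervalIntegral.integral_same] at hb
    have hmono : ∫ s in a'..b', Γ k s ≤ ∫ s in t k..(t k + 1), Γ k s := by
      refine intervalIntegral.integral_mono_interval e1.le hab e2.le ?_ (hΓi k _ _)
      rw [EventuallyLE, ae_restrict_iff' measurableSet_Ioc]
      exact ae_of_all _ fun s hs =>
        M.gain_nonneg (hR0 k) (h01 s).1 (hτlt k s (Ioc_subset_Icc_self hs))
    simp only [hΓd, hτd] at hmono ⊢
    linarith
  have hle : ∫ s in a'..b', Γ0 s ≤ 0 := by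
    have h := le_of_tendsto_of_tendsto hdct
      (((hft.const_mul 4).const_add P).sub (tendsto_const_nhds.div hRlim hr.ne')) hbound
    linarith
  have hnn : ∀ s ∈ Icc a' b', 0 ≤ Γ0 s := fun s hs =>
    ge_of_tendsto (hlimΓ s) (hin.mono fun k hk =>
      M.gain_nonneg (hR0 k) (h01 s).1 (hτlt k s ⟨by linarith [hs.1], by linarith [hs.2]⟩))
  have hnn' : 0 ≤ᵐ[volume.restrict (Ioc a' b')] Γ0 := by
    rw [EventuallyLE, ae_restrict_iff' measurableSet_Ioc]
    exact ae_of_all _ fun s hs => hnn s (Ioc_subset_Icc_self hs)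
  have h0 := (intervalIntegral.integral_eq_zero_iff_of_le_of_nonneg_ae hab hnn'
    (M.gain_intervalIntegrable hm h01 hr (M.continuous_pos hfi _ _ _) (fun s => M.absQ _) _ _)).1
    (le_antisymm hle (intervalIntegral.integral_nonneg hab hnn))
  rw [EventuallyEq, ae_restrict_iff' measurableSet_Ioc] at h0
  exact h0

/-- **Equality case.** A profile attaining the model value is a translate of the model. -/
theorem profile_eq {r : ℝ} (hm : Measurable f) (hp : Periodic f 1)
    (h01 : ∀ x, f x ∈ Icc (0 : ℝ) 1) (hr : 0 < r)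
    (hv : (∫ s in (0 : ℝ)..1, f s) = 2 * M.q * M.ρ r)
    (h : TestBound f (fun x => M.L (f x)) P)
    (hP : P ≤ M.k * (∫ s in (0 : ℝ)..1, f s) / r)
    (hlow : ∀ ε > 0, 0 < volume ({s | f s < ε} ∩ Ioc (0 : ℝ) 1)) :
    r ≤ 1 / 2 ∧ ∃ c, ∀ᵐ s : ℝ, f s = M.prof r (dnear (s - c)) := by
  set v := ∫ s in (0 : ℝ)..1, f s with hvd
  have hq := M.q_pos
  have hρ := M.ρ_pos r hr
  have hv0 : 0 < v := by rw [hv]; positivity
  have hC : ∀ x, |f x| ≤ 1 := fun x => by rw [abs_of_nonneg (h01 x).1]; exact (h01 x).2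
  have hfi := intervalIntegrable_of_bound hm hC
  obtain ⟨F, K, hS⟩ := exists_smoothing h hm hp (C := 4) (fun x => (hC x).trans (by norm_num))
    (M.L_meas.comp hm) (fun x => by simp only [hp x]) fun x => M.L_mem _ (h01 x)
  have hx : ∀ k : ℕ, ∃ x ∈ {s | f s < 1 / ((k : ℝ) + 1)} ∩ Ioc (0 : ℝ) 1,
      Tendsto (fun n => F n x) atTop (𝓝 (f x)) := fun k =>
    Measure.exists_mem_of_measure_ne_zero_of_ae (hlow _ (by positivity)).ne'
      (ae_restrict_of_ae hS.limF)
  choose x hx1 hx2 using hx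
  obtain ⟨a, -, φ, hφ, hta⟩ := (isCompact_Icc (a := (0 : ℝ)) (b := 1)).tendsto_subseq
    (x := x) fun k => Ioc_subset_Icc_self (hx1 k).2
  have hft : Tendsto (fun k => f (x (φ k))) atTop (𝓝 0) :=
    (squeeze_zero (fun k => (h01 _).1) (fun k => (hx1 k).1.le)
      (tendsto_one_div_add_atTop_nhds_zero_nat (𝕜 := ℝ))).comp hφ.tendsto_atTop
  set G : ℝ → ℝ := fun s => ∫ t in a..s, f t with hGd
  have hGc : Continuous G := continuous_primitive hfi a
  have hGa : G a = 0 := intervalIntegral.integral_same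
  have hG1 : G (a + 1) = v := by
    simp only [hGd]; rw [hp.intervalIntegral_add_eq a 0, zero_add]
  have hGmono : Monotone G := fun x y hxy => by
    have := intervalIntegral.integral_nonneg (μ := volume) hxy fun s _ => (h01 s).1
    have := integral_add_adjacent_intervals (hfi a x) (hfi x y)
    simp only [hGd]; linarith
  set T := M.pos r f a (a + 1) with hTd
  have hTc : Continuous T := M.continuous_pos hfi _ _ _
  have hTe : ∀ s, T s = M.Q ((G s - v / 2) / M.ρ r) := fun s => by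
    simp only [hTd, pos, hGd]; rw [hp.intervalIntegral_add_eq a 0, zero_add]
  have hTlt : ∀ s, 0 < G s → G s < v → |(G s - v / 2) / M.ρ r| < M.q := fun s e1 e2 => by
    rw [abs_div, abs_of_pos hρ, div_lt_iff₀ hρ, abs_lt]; constructor <;> linarith
  set g : ℝ → ℝ := fun s => M.κ (T s) * M.ρ r / r with hgd
  have hgc : Continuous g := ((M.contκ.comp hTc).mul_const _).div_const _
  -- a.e. the profile is the model's wherever mass lies on both sides
  have hz : ∀ᵐ s : ℝ, ∀ j : ℕ, s ∈ Ioc (a + 1 / ((j : ℝ) + 3)) (a + 1 - 1 / ((j : ℝ) + 3)) →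
      M.gain r (f s) (T s) = 0 := ae_all_iff.2 fun j => by
    have h3 : 1 / ((j : ℝ) + 3) ≤ 1 / 3 :=
      one_div_le_one_div_of_le (by norm_num) (by linarith [(Nat.cast_nonneg j : (0 : ℝ) ≤ j)])
    have h0 : 0 < 1 / ((j : ℝ) + 3) := by positivity
    exact M.gain_zero hm hp h01 hr hv hS hP (fun k => hx2 (φ k)) hta hft (by linarith)
      (by linarith) (by linarith)
  have hI : ∀ᵐ s : ℝ, s ∈ Ioo a (a + 1) → 0 < G s → G s < v → f s = g s := by
    filter_upwards [hz, hS.limF] with s hz' hlim hs e1 e2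
    obtain ⟨j, hj⟩ := exists_nat_one_div_lt (lt_min (sub_pos.2 hs.1) (sub_pos.2 hs.2))
    have hj' : 1 / ((j : ℝ) + 3) < min (s - a) (a + 1 - s) := lt_of_le_of_lt
      (one_div_le_one_div_of_le (by positivity) (by linarith)) hj
    obtain ⟨hj1, hj2⟩ := lt_min_iff.1 hj'
    have hg0 := hz' j ⟨by linarith, by linarith⟩
    have hτ : |T s| < 1 := by rw [hTe]; exact M.ltQ _ (hTlt s e1 e2)
    rw [M.gain_eq hr hτ, mul_eq_zero] at hg0
    have hκ := M.κ_pos _ hτ
    rcases hg0 with hg0 | hg0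
    · linarith
    rcases (h01 s).1.eq_or_lt with h0 | h0
    · exact (M.no_gap hm hp h01 hr hv hS hP (fun k => hx2 (φ k)) hta hft hs.1 hs.2 hlim h0.symm
        e1 e2).elim
    · exact M.eqCase r (f s) (T s) hr h0 hτ (sub_eq_zero.1 hg0)
  -- the ends of the support
  have hAc : IsCompact (Icc a (a + 1) ∩ G ⁻¹' {0}) :=
    isCompact_Icc.inter_right (isClosed_singleton.preimage hGc)
  have hBc : IsCompact (Icc a (a + 1) ∩ G ⁻¹' {v}) :=
    isCompact_Icc.inter_right (isClosed_singleton.preimage hGc)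
  set α := sSup (Icc a (a + 1) ∩ G ⁻¹' {0})
  set β := sInf (Icc a (a + 1) ∩ G ⁻¹' {v})
  have hα : α ∈ Icc a (a + 1) ∩ G ⁻¹' {0} :=
    hAc.sSup_mem ⟨a, left_mem_Icc.2 (by linarith), hGa⟩
  have hβ : β ∈ Icc a (a + 1) ∩ G ⁻¹' {v} :=
    hBc.sInf_mem ⟨a + 1, right_mem_Icc.2 (by linarith), hG1⟩
  have hGα : G α = 0 := hα.2
  have hGβ : G β = v := hβ.2
  have hαβ : α < β := by
    by_contra hc
    linarith [hGmono (not_lt.1 hc)]
  have hinside : ∀ s ∈ Ioo α β, 0 < G s ∧ G s < v := fun s hs => by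
    have hs' : s ∈ Icc a (a + 1) := ⟨by linarith [hα.1.1, hs.1], by linarith [hβ.1.2, hs.2]⟩
    constructor
    · refine lt_of_le_of_ne (by linarith [hGmono hs.1.le]) fun e => ?_
      linarith [le_csSup hAc.bddAbove (⟨hs', e.symm⟩ : s ∈ Icc a (a + 1) ∩ G ⁻¹' {0}), hs.1]
    · refine lt_of_le_of_ne (by linarith [hGmono hs.2.le]) fun e => ?_
      linarith [csInf_le hBc.bddBelow (⟨hs', e⟩ : s ∈ Icc a (a + 1) ∩ G ⁻¹' {v}), hs.2]
  have hzero : ∀ x y, x ≤ y → G x = G y → ∀ᵐ s : ℝ, s ∈ Ioc x y → f s = 0 := fun x y hxy e => by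
    have h0 : ∫ s in x..y, f s = 0 := by
      rw [← integral_interval_sub_left (hfi a y) (hfi a x)]
      exact sub_eq_zero.2 e.symm
    have := (intervalIntegral.integral_eq_zero_iff_of_le_of_nonneg_ae hxy
      (Eventually.of_forall fun s => (h01 s).1) (hfi x y)).1 h0
    rwa [EventuallyEq, ae_restrict_iff' measurableSet_Ioc] at this
  have hout1 := hzero a α hα.1.1 (hGa.trans hGα.symm)
  have hout2 := hzero β (a + 1) hβ.1.2 (hGβ.trans hG1.symm)
  have hsub : Ioo α β ⊆ Ioo a (a + 1) := Ioo_subset_Ioo hα.1.1 hβ.1.2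
  -- the position moves at constant speed
  have hGeq : ∀ s ∈ Ioo α β, G s = ∫ t in α..s, g t := fun s hs => by
    have e : ∫ t in α..s, f t = G s - G α := (integral_interval_sub_left (hfi a s) (hfi a α)).symm
    rw [hGα, sub_zero] at e
    rw [← e]
    refine intervalIntegral.integral_congr_ae (hI.mono fun t ht htm => ?_)
    rw [uIoc_of_le hs.1.le] at htm
    have ht' : t ∈ Ioo α β := ⟨htm.1, htm.2.trans_lt hs.2⟩
    exact ht (hsub ht') (hinside t ht').1 (hinside t ht').2
  have hTd' : ∀ s ∈ Ioo α β, HasDerivAt T (1 / r) s := fun s hs => by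
    have hGder : HasDerivAt G (g s) s :=
      ((hgc.integral_hasStrictDerivAt α s).hasDerivAt).congr_of_eventuallyEq
        (eventually_of_mem (Ioo_mem_nhds hs.1 hs.2) hGeq)
    have hTfun : T = fun s => M.Q ((G s - v / 2) / M.ρ r) := funext hTe
    obtain ⟨e1, e2⟩ := hinside s hs
    have hd := (M.derivQ _ (hTlt s e1 e2)).comp s ((hGder.sub_const (v / 2)).div_const (M.ρ r))
    rw [hTfun]
    refine hd.congr_deriv ?_
    have hκ := (M.κ_pos _ (M.ltQ _ (hTlt s e1 e2))).ne'
    simp only [hgd, hTe]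
    generalize M.κ (M.Q ((G s - v / 2) / M.ρ r)) = z at hκ ⊢
    field_simp
  have hTα : T α = -1 := by
    rw [hTe, hGα, hv, ← M.botQ]; congr 1; field_simp; ring
  have hTβ : T β = 1 := by
    rw [hTe, hGβ, hv, ← M.topQ]; congr 1; field_simp; ring
  have hlin : ∀ s ∈ Icc α β, T s - T α = (s - α) / r := fun s hs => by
    have h := intervalIntegral.integral_eq_sub_of_hasDerivAt_of_le hs.1 hTc.continuousOn
      (f' := fun _ => 1 / r) (fun y hy => hTd' y ⟨hy.1, hy.2.trans_le hs.2⟩)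
      intervalIntegrable_const
    rw [← h, intervalIntegral.integral_const, smul_eq_mul, mul_one_div]
  have hlen : β = α + 2 * r := by
    have e := hlin β (right_mem_Icc.2 hαβ.le)
    rw [hTα, hTβ, eq_div_iff hr.ne'] at e
    linarith
  have hr2 : r ≤ 1 / 2 := by linarith [hα.1.1, hβ.1.2]
  refine ⟨hr2, α + r, ?_⟩
  have hloc : ∀ᵐ s : ℝ, s ∈ Ioc a (a + 1) → f s = M.prof r (dnear (s - (α + r))) := by
    filter_upwards [hout1, hout2, hI, (Measure.ae_ne volume β)] with s h1 h2 h3 h4 hs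
    obtain ⟨hd1, hd2⟩ := dnear_window (x := s - (α + r)) hr2
      (by linarith [hs.1, hβ.1.2]) (by linarith [hs.2, hα.1.1])
    rcases le_or_gt s α with c1 | c1
    · rw [h1 ⟨hs.1, c1⟩, prof, if_neg (not_lt.2 (hd2 ?_))]
      exact le_trans (by linarith) (neg_le_abs _)
    rcases lt_or_ge s β with c2 | c2
    · have hs' : s ∈ Ioo α β := ⟨c1, c2⟩
      have habs : |s - (α + r)| < r := abs_lt.2 ⟨by linarith, by linarith⟩
      rw [h3 (hsub hs') (hinside s hs').1 (hinside s hs').2, prof, hd1 habs, if_pos habs]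
      have e := hlin s (Ioo_subset_Icc_self hs')
      rw [hTα] at e
      have e' : T s = (s - (α + r)) / r := by
        rw [eq_div_iff hr.ne'] at e ⊢
        linarith
      simp only [hgd, e']
    · rw [h2 ⟨lt_of_le_of_ne c2 (Ne.symm h4), hs.2⟩, prof, if_neg (not_lt.2 (hd2 ?_))]
      exact le_trans (by linarith) (le_abs_self _)
  set d : ℝ → ℝ := fun u => f (u + a) - M.prof r (dnear (u + a - (α + r))) with hdd
  have hdp : Periodic d 1 := fun u => by
    simp only [hdd, show u + 1 + a = u + a + 1 by ring, hp (u + a),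
      show u + a + 1 - (α + r) = u + a - (α + r) + 1 by ring, dnear_add_one]
  have hd0 : ∀ᵐ u : ℝ, d u = 0 := ae_of_ae_Ioc hdp (p := fun y => y = 0) (by
    rw [ae_restrict_iff' measurableSet_Ioc]
    filter_upwards [(measurePreserving_add_right volume a).quasiMeasurePreserving.ae hloc]
      with u hu hmem
    exact sub_eq_zero.2 (hu ⟨by linarith [hmem.1], by linarith [hmem.2]⟩))
  filter_upwards [(measurePreserving_add_right volume (-a)).quasiMeasurePreserving.ae hd0] with s hs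
  simpa [hdd, sub_eq_zero] using hs

end Vale.Agent.P232.BallUniq.Model
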