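import Vale.Agent.P232.Uniq.Ball.Chord
import Vale.Agent.P232.Uniq.Ball.Equality

/-!
Slice areas of a set attaining the ball's value are those of a ball.
-/

open MeasureTheory Set Filter Function Real intervalIntegral
open scoped Topology

namespace Vale.Agent.P232.BallUniq

open Cylinder

/-- The inverse of `t - t ^ 3 / 3` on `[-1, 1]`. -/
noncomputable def ballInv (x : ℝ) : ℝ := 2 * sin (arcsin (3 * x / 2) / 3)

lemma abs_ballInv (x : ℝ) : |ballInv x| ≤ 1 := by
  have h1 := arcsin_mem_Icc (3 * x / 2)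
  have hpi := Real.pi_pos
  have a1 := sin_le_sin_of_le_of_le_pi_div_two (x := arcsin (3 * x / 2) / 3) (y := π / 6)
    (by linarith [h1.1]) (by linarith) (by linarith [h1.2])
  have a2 := sin_le_sin_of_le_of_le_pi_div_two (x := -(π / 6)) (y := arcsin (3 * x / 2) / 3)
    (by linarith) (by linarith [h1.2]) (by linarith [h1.1])
  rw [sin_pi_div_six] at a1
  rw [sin_neg, sin_pi_div_six] at a2
  rw [ballInv, abs_le]
  constructor <;> linarith

lemma abs_ballInv_lt {x : ℝ} (hx : |x| < 2 / 3) : |ballInv x| < 1 := by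
  obtain ⟨h1, h2⟩ := abs_lt.1 hx
  have b1 := (neg_pi_div_two_lt_arcsin (x := 3 * x / 2)).2 (by linarith)
  have b2 := (arcsin_lt_pi_div_two (x := 3 * x / 2)).2 (by linarith)
  have hpi := Real.pi_pos
  have a1 := sin_lt_sin_of_lt_of_le_pi_div_two (x := arcsin (3 * x / 2) / 3) (y := π / 6)
    (by linarith) (by linarith) (by linarith)
  have a2 := sin_lt_sin_of_lt_of_le_pi_div_two (x := -(π / 6)) (y := arcsin (3 * x / 2) / 3)
    (by linarith) (by linarith) (by linarith)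
  rw [sin_pi_div_six] at a1
  rw [sin_neg, sin_pi_div_six] at a2
  rw [ballInv, abs_lt]
  constructor <;> linarith

lemma hasDerivAt_ballInv {x : ℝ} (hx : |x| < 2 / 3) :
    HasDerivAt ballInv (1 / (1 - ballInv x ^ 2)) x := by
  obtain ⟨h1, h2⟩ := abs_lt.1 hx
  set A := arcsin (3 * x / 2) with hA
  have hd : HasDerivAt ballInv
      (2 * (cos (A / 3) * (1 / √(1 - (3 * x / 2) ^ 2) * (3 / 2) / 3))) x := by
    have d1 : HasDerivAt (fun y : ℝ => 3 * y / 2) (3 / 2) x := by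
      simpa using ((hasDerivAt_id x).const_mul (3 : ℝ)).div_const 2
    have d2 := ((hasDerivAt_arcsin (x := 3 * x / 2) (by linarith) (by linarith)).comp x
      d1).div_const 3
    exact ((hasDerivAt_sin _).comp x d2).const_mul 2
  refine hd.congr_deriv ?_
  have hlt := abs_lt.1 (abs_ballInv_lt hx)
  have hne : 1 - ballInv x ^ 2 ≠ 0 := by nlinarith
  have hcA : 0 < cos A := cos_pos_of_mem_Ioo
    ⟨(neg_pi_div_two_lt_arcsin).2 (by linarith), (arcsin_lt_pi_div_two).2 (by linarith)⟩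
  have hs : sin (A / 3) ^ 2 = 1 - cos (A / 3) ^ 2 := by linarith [sin_sq_add_cos_sq (A / 3)]
  have h3 : cos A = cos (A / 3) * (1 - ballInv x ^ 2) := by
    have := cos_three_mul (A / 3)
    rw [show 3 * (A / 3) = A by ring] at this
    rw [this, ballInv, ← hA, mul_pow, hs]
    ring
  rw [← cos_arcsin, ← hA, h3]
  have hc : cos (A / 3) ≠ 0 := fun e => by rw [h3, e, zero_mul] at hcA; exact lt_irrefl 0 hcA
  field_simp

lemma ball_gap {R y τ : ℝ} (hR : 0 < R) (hy : 0 ≤ y) (hτ : |τ| < 1) :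
    √(1 - τ ^ 2) * (2 * √(π * y)) + y ^ 2 / (π * R ^ 3 * (1 - τ ^ 2)) - 3 * y / R
      = π * R * ((√y / (√π * R)) * (√y / (√π * R) - √(1 - τ ^ 2)) ^ 2
          * (√y / (√π * R) + 2 * √(1 - τ ^ 2))) / (1 - τ ^ 2) := by
  have h0 : 0 < 1 - τ ^ 2 := by nlinarith [abs_lt.1 hτ]
  have hp := Real.sqrt_pos.2 Real.pi_pos
  have hp2 := Real.sq_sqrt Real.pi_nonneg
  have hY := Real.sqrt_pos.2 h0
  have hY2 := Real.sq_sqrt h0.le
  have hw2 := Real.sq_sqrt hy
  rw [Real.sqrt_mul Real.pi_nonneg]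
  generalize √(1 - τ ^ 2) = Y at hY hY2 ⊢
  generalize √y = w at hw2 ⊢
  generalize √π = p at hp hp2 ⊢
  rw [← hY2, ← hw2, ← hp2]
  field_simp
  ring

/-- The ball as a model. -/
noncomputable def ballModel : Model where
  Q := ballInv
  κ τ := 1 - τ ^ 2
  ρ R := π * R ^ 3
  L y := 2 * √(π * y)
  q := 2 / 3
  k := 3
  q_pos := by norm_num
  k_pos := by norm_num
  contQ := by unfold ballInv; exact (continuous_sin.comp
    ((continuous_arcsin.comp (by fun_prop)).div_const 3)).const_mul 2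
  absQ := abs_ballInv
  botQ := by
    rw [ballInv, show 3 * (-(2 / 3)) / 2 = (-1 : ℝ) by norm_num, arcsin_neg_one,
      show -(π / 2) / 3 = -(π / 6) by ring, sin_neg, sin_pi_div_six]
    norm_num
  topQ := by
    rw [ballInv, show 3 * (2 / 3) / 2 = (1 : ℝ) by norm_num, arcsin_one,
      show π / 2 / 3 = π / 6 by ring, sin_pi_div_six]
    norm_num
  ltQ _ h := abs_ballInv_lt h
  contκ := by fun_prop
  κ_nonneg τ h := by nlinarith [abs_le.1 h]
  κ_pos τ h := by nlinarith [abs_lt.1 h]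
  κ_le τ _ := by nlinarith [sq_nonneg τ]
  derivQ _ h := hasDerivAt_ballInv h
  contρ := by fun_prop
  ρ_pos R h := by positivity
  ρ_mono R S h h' := mul_lt_mul_of_pos_left (pow_lt_pow_left₀ h' h.le (by norm_num)) Real.pi_pos
  L_meas := (measurable_id.const_mul π).sqrt.const_mul 2
  L_mem y hy := by
    refine ⟨by positivity, ?_⟩
    have : √(π * y) ≤ 2 := Real.sqrt_le_iff.2 ⟨zero_le_two, by
      nlinarith [Real.pi_le_four, hy.2, Real.pi_pos, hy.1]⟩
    linarith
  ineq R y τ hR hy hτ := by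
    have h0 : 0 < 1 - τ ^ 2 := by nlinarith [abs_lt.1 hτ]
    have e := ball_gap hR hy hτ
    have : 0 ≤ π * R * ((√y / (√π * R)) * (√y / (√π * R) - √(1 - τ ^ 2)) ^ 2
          * (√y / (√π * R) + 2 * √(1 - τ ^ 2))) / (1 - τ ^ 2) := by positivity
    linarith
  eqCase R y τ hR hy hτ h := by
    have h0 : 0 < 1 - τ ^ 2 := by nlinarith [abs_lt.1 hτ]
    have e := ball_gap hR hy.le hτ
    rw [h, sub_self, eq_comm] at e
    have hz : 0 < √y / (√π * R) := by positivity
    have hY := Real.sqrt_pos.2 h0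
    simp only [div_eq_zero_iff, mul_eq_zero, h0.ne', hz.ne', Real.pi_ne_zero, hR.ne', false_or,
      or_false, pow_eq_zero_iff two_ne_zero, sub_eq_zero] at e
    rcases e with e | e
    · have h2 : (√y / (√π * R)) ^ 2 = √(1 - τ ^ 2) ^ 2 := by rw [e]
      rw [div_pow, mul_pow, Real.sq_sqrt hy.le, Real.sq_sqrt Real.pi_nonneg, Real.sq_sqrt h0.le,
        div_eq_iff (by positivity)] at h2
      rw [h2]
      field_simp
    · linarith

variable {f : ℝ → ℝ} {P : ℝ}

/-- **Slice areas in the equality case of the ball range.** -/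
theorem ball_profile (hm : Measurable f) (hp : Periodic f 1) (h01 : ∀ s, f s ∈ Icc (0 : ℝ) 1)
    (hv : 0 < ∫ s in (0 : ℝ)..1, f s) (hv0 : (∫ s in (0 : ℝ)..1, f s) ≤ 4 * π / 81)
    (h : TestBound f (fun s => 2 * √(π * f s)) P)
    (hP : P ≤ 2 * ballTube (∫ s in (0 : ℝ)..1, f s)) :
    (∃ c r, 0 < r ∧ r ≤ 1 / 2 ∧ (∫ s in (0 : ℝ)..1, f s) = 4 / 3 * π * r ^ 3 ∧
        ∀ᵐ s : ℝ, f s = π * max 0 (r ^ 2 - dnear (s - c) ^ 2)) ∨
      ((∫ s in (0 : ℝ)..1, f s) = 4 * π / 81 ∧ ∀ᵐ s : ℝ, f s = 4 * π / 81) := by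
  rcases low_or_const hm hp h01 hv hv0 h hP with hlow | hconst
  swap
  · exact Or.inr hconst
  refine Or.inl ?_
  set v := ∫ s in (0 : ℝ)..1, f s with hvd
  set r := (3 * v / (4 * π)) ^ ((1 : ℝ) / 3) with hr
  have hpi := Real.pi_pos
  have hr0 : 0 < r := by positivity
  have hr3 : r ^ 3 = 3 * v / (4 * π) := by
    rw [hr, ← Real.rpow_natCast, ← Real.rpow_mul (by positivity)]; norm_num
  have hve : v = 4 / 3 * π * r ^ 3 := by rw [hr3]; field_simp
  have hval : (9 * π / 2) ^ ((1 : ℝ) / 3) * v ^ ((2 : ℝ) / 3) = 2 * π * r ^ 2 := by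
    refine (pow_left_inj₀ (by positivity) (by positivity) (three_ne_zero)).1 ?_
    rw [mul_pow, mul_pow, ← pow_mul r 2 3, show 2 * 3 = 3 * 2 by norm_num, pow_mul r 3 2, hr3,
      ← Real.rpow_natCast, ← Real.rpow_mul (by positivity), ← Real.rpow_natCast,
      ← Real.rpow_mul hv.le]
    norm_num
    field_simp
    ring
  have hP' : P ≤ ballModel.k * v / r := by
    refine hP.trans ((mul_le_mul_of_nonneg_left (min_le_left _ _) zero_le_two).trans (le_of_eq ?_))
    rw [hval]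
    show 2 * (2 * π * r ^ 2) = 3 * v / r
    rw [hve]; field_simp; ring
  obtain ⟨hr2, c, hc⟩ := ballModel.profile_eq hm hp h01 hr0
    (show v = 2 * (2 / 3) * (π * r ^ 3) by rw [hve]; ring) h hP' hlow
  refine ⟨c, r, hr0, hr2, hve, hc.mono fun s hs => ?_⟩
  rw [hs]
  generalize dnear (s - c) = x
  unfold Model.prof
  split_ifs with hx
  · have h2 := abs_lt.1 hx
    rw [max_eq_right (by nlinarith)]
    show (1 - (x / r) ^ 2) * (π * r ^ 3) / r = _
    field_simp
  · rw [max_eq_left (by nlinarith [sq_abs x, not_lt.1 hx]), mul_zero]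

end Vale.Agent.P232.BallUniq
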