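import Vale.Agent.P232.Uniq.Ball.Smooth
import Vale.Agent.P232.CylinderEq

/-!
The chord calibration for profiles which need not be monotone, and its equality case: a profile
attaining the ball's value gets arbitrarily small.
-/

open MeasureTheory Set Filter Function Real intervalIntegral
open scoped Topology

namespace Vale.Agent.P232.BallUniq

open Cylinder

theorem key_one_strict {ρ σ : ℝ} (hρ0 : 0 < ρ) (hρσ : ρ < σ) (hσ1 : σ < 1) :
    9 / 4 * σ * (σ - ρ) * (1 - σ) < H ρ 1 := by
  have h0 := hρ0.le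
  have h1 := hρσ.le
  have h2 := hσ1.le
  rcases le_or_gt ρ (18 / 100) with hρ | hρ
  · refine lt_of_lt_of_le ?_ (small_bound h0 hρ)
    have hσ : 0 ≤ σ := h0.trans h1
    -- the endpoints in ρ
    have e0 : 9 / 4 * σ * σ * (1 - σ) ≤ 1 / 3 := by
      nlinarith [mul_nonneg (sq_nonneg (3 * σ - 2)) (show 0 ≤ 3 * σ + 1 by linarith)]
    have e1 : 9 / 4 * σ * (σ - 18 / 100) * (1 - σ) + 1 / 1000
        ≤ 1 / 3 - (18 / 100) ^ 2 / 2 - 368 / 1000 * (18 / 100) := by
      nlinarith [mul_nonneg (sq_nonneg (σ - 71 / 100)) hσ, sq_nonneg (σ - 71 / 100),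
        mul_nonneg (mul_nonneg hσ hσ) (sub_nonneg.2 h2)]
    nlinarith [mul_le_mul_of_nonneg_left e0 (show (0 : ℝ) ≤ 1 - ρ / (18 / 100) by linarith),
      mul_le_mul_of_nonneg_left e1 (show (0 : ℝ) ≤ ρ / (18 / 100) by linarith),
      mul_nonneg h0 (sub_nonneg.2 hρ)]
  · refine lt_of_lt_of_le ?_ (large_bound h0 (h1.trans h2))
    set m := (1 + ρ) / 2 with hm
    set h := (1 - ρ) / 2 with hh
    have hm0 : 0 < m := by positivity
    set t := σ - m with ht
    have hup : σ * (σ - ρ) * (1 - σ) ≤ h ^ 2 * (m + h ^ 2 / (4 * m)) := by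
      have e : σ * (σ - ρ) * (1 - σ) = m * h ^ 2 + (t * h ^ 2 - m * t ^ 2 - t ^ 3) := by
        rw [ht, hh, hm]; ring
      have hk : t * h ^ 2 - m * t ^ 2 - t ^ 3 ≤ h ^ 4 / (4 * m) := by
        rcases le_or_gt 0 t with htp | htn
        · have : t * h ^ 2 - m * t ^ 2 ≤ h ^ 4 / (4 * m) := by
            rw [le_div_iff₀ (by positivity)]; nlinarith [sq_nonneg (h ^ 2 - 2 * m * t)]
          nlinarith [pow_nonneg htp 3]
        · have hb : 0 ≤ h ^ 2 - m * t - t ^ 2 := by
            have ht1 : -h ≤ t := by rw [ht, hh, hm]; linarith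
            nlinarith [mul_nonneg (neg_nonneg.2 htn.le) hm0.le]
          have h4 : 0 ≤ h ^ 4 / (4 * m) := by positivity
          nlinarith [mul_nonneg (neg_nonneg.2 htn.le) hb]
      rw [e]
      calc m * h ^ 2 + (t * h ^ 2 - m * t ^ 2 - t ^ 3) ≤ m * h ^ 2 + h ^ 4 / (4 * m) := by
            linarith
        _ = _ := by ring
    set k := Real.sqrt ((1 + ρ ^ 2) / 2) with hk
    have hk0 : 0 < k := Real.sqrt_pos.2 (by positivity)
    have hk2 : k ^ 2 = (1 + ρ ^ 2) / 2 := Real.sq_sqrt (by positivity)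
    have hkb : k ≤ ((1 + ρ ^ 2) / 2 + 5184 / 10000) / (144 / 100) := by
      rw [le_div_iff₀ (by norm_num)]; nlinarith [sq_nonneg (k - 72 / 100)]
    have hρ1 : ρ ≤ 1 := h1.trans h2
    have hpoly : 9 * ((1 + ρ) ^ 2 + (1 - ρ) ^ 2 / 4) * ((1 + ρ ^ 2) / 2 + 5184 / 10000)
        ≤ 314 / 100 * 2 * (1 + ρ) ^ 3 * (144 / 100) := by
      nlinarith [mul_nonneg (sub_nonneg.2 hρ.le) (sub_nonneg.2 hρ1), pow_nonneg h0 3,
        mul_nonneg (mul_nonneg h0 h0) (sub_nonneg.2 hρ1)]
    rw [lt_div_iff₀ (by positivity)]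
    have h9 : 9 * ((1 + ρ) ^ 2 + (1 - ρ) ^ 2 / 4) * k < Real.pi * 2 * (1 + ρ) ^ 3 := by
      refine lt_of_le_of_lt (mul_le_mul_of_nonneg_left hkb (by positivity)) ?_
      rw [← mul_div_assoc, div_lt_iff₀ (by norm_num)]
      refine hpoly.trans_lt ?_
      gcongr
      exact (by linarith [Real.pi_gt_d4] : (314 / 100 : ℝ) < Real.pi)
    calc 9 / 4 * σ * (σ - ρ) * (1 - σ) * (16 * k)
        = 36 * k * (σ * (σ - ρ) * (1 - σ)) := by ring
      _ ≤ 36 * k * (h ^ 2 * (m + h ^ 2 / (4 * m))) := by gcongr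
      _ = h ^ 2 * (2 / (1 + ρ)) * (9 * ((1 + ρ) ^ 2 + (1 - ρ) ^ 2 / 4) * k) := by
          rw [hm, hh]; field_simp; ring
      _ < h ^ 2 * (2 / (1 + ρ)) * (Real.pi * 2 * (1 + ρ) ^ 3) :=
          mul_lt_mul_of_pos_left h9 (by
            have : 0 < h := by rw [hh]; linarith
            positivity)
      _ = Real.pi * (1 - ρ ^ 2) ^ 2 := by rw [hh]; field_simp; ring

/-- The chord value exceeds the ball's for a positive lower bound. -/
theorem chord_strict {u w v : ℝ} (hu : 0 < u) (huw : u ≤ w) (hv : 0 < v) (hv0 : v ≤ 4 * π / 81)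
    (h : (√π * (v + u * w) + 2 * H u w) / (u + w) ≤ ballTube v) :
    v = 4 * π / 81 ∧ u ^ 2 = v ∧ w ^ 2 = v := by
  have hpi := Real.pi_pos
  set p := √π with hp
  have hp2 : p ^ 2 = π := Real.sq_sqrt hpi.le
  have hp0 : 0 < p := Real.sqrt_pos.2 hpi
  replace h := h.trans (min_le_left _ _)
  rw [div_le_iff₀ (by linarith)] at h
  set σ := (v / (4 * π / 81)) ^ ((1 : ℝ) / 3) with hσ
  have hσp : 0 < σ := by positivity
  have hσ3 : σ ^ 3 = v / (4 * π / 81) := by
    rw [hσ, ← Real.rpow_natCast, ← Real.rpow_mul (by positivity)]; norm_num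
  have hσ1 : σ ≤ 1 := by
    rw [hσ]
    exact Real.rpow_le_one (by positivity) ((div_le_one (by positivity)).2 hv0) (by norm_num)
  have hval : (9 * π / 2) ^ ((1 : ℝ) / 3) * v ^ ((2 : ℝ) / 3) = 2 * π / 9 * σ ^ 2 := by
    refine (pow_left_inj₀ (by positivity) (by positivity) (three_ne_zero)).1 ?_
    rw [mul_pow, mul_pow, ← pow_mul, show 2 * 3 = 3 * 2 by norm_num, pow_mul, hσ3,
      ← Real.rpow_natCast, ← Real.rpow_mul (by positivity), ← Real.rpow_natCast,
      ← Real.rpow_mul hv.le]
    norm_num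
    field_simp
    ring
  rw [hval] at h
  set s := σ * (2 * p / 9) with hs
  have hs0 : 0 < s := by positivity
  have hvs : v = σ * s ^ 2 := by
    have : v = σ ^ 3 * (4 * π / 81) := by rw [hσ3]; field_simp
    rw [hs, this, ← hp2]; ring
  have hsq : 2 * π / 9 * σ ^ 2 = p * σ * s := by rw [hs, ← hp2]; ring
  have hs9 : p * σ = 9 / 2 * s := by rw [hs]; ring
  have e : p * (v + u * w) - p * σ * s * (u + w)
      = 9 / 2 * s * ((s - u) * (s - w)) + p * (1 - σ) * (u * w) := by rw [← hs9, hvs]; ring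
  rw [hsq] at h
  have hkey := key hu.le huw hs0.le
  have hw : 0 < w := hu.trans_le huw
  have hnn : 0 ≤ p * (1 - σ) * (u * w) :=
    mul_nonneg (mul_nonneg hp0.le (sub_nonneg.2 hσ1)) (mul_pos hu hw).le
  have hσe : σ = 1 := by
    by_contra hne
    have : 0 < p * (1 - σ) * (u * w) :=
      mul_pos (mul_pos hp0 (sub_pos.2 (lt_of_le_of_ne hσ1 hne))) (mul_pos hu hw)
    linarith [show 9 / 2 * s * ((s - u) * (s - w)) = -(2 * (9 / 4 * s * (s - u) * (w - s))) by ring]
  have heq : 2 * H u w ≤ 2 * (9 / 4 * s * (s - u) * (w - s)) := by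
    linarith [show 9 / 2 * s * ((s - u) * (s - w)) = -(2 * (9 / 4 * s * (s - u) * (w - s))) by ring]
  have hvsq : v = s ^ 2 := by rw [hvs, hσe, one_mul]
  have huweq : u = w := by
    by_contra hne
    have huw' : u < w := lt_of_le_of_ne huw hne
    have hH := H_pos hu.le huw'
    have hin : u < s ∧ s < w := by
      by_contra hc
      have : (s - u) * (w - s) ≤ 0 := by
        rcases le_or_gt s u with h' | h'
        · exact mul_nonpos_of_nonpos_of_nonneg (by linarith) (by linarith)
        · exact mul_nonpos_of_nonneg_of_nonpos (by linarith)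
            (by linarith [not_lt.1 fun h'' => hc ⟨h', h''⟩])
      have := mul_nonpos_of_nonneg_of_nonpos (show 0 ≤ 9 / 4 * s by positivity) this
      linarith
    have hk := key_one_strict (ρ := u / w) (σ := s / w) (div_pos hu hw)
      (div_lt_div_of_pos_right hin.1 hw) ((div_lt_one hw).2 hin.2)
    have hsc := H_scale (u / w) w
    rw [div_mul_cancel₀ u hw.ne'] at hsc
    have e3 : 9 / 4 * s * (s - u) * (w - s)
        = w ^ 3 * (9 / 4 * (s / w) * (s / w - u / w) * (1 - s / w)) := by field_simp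
    have := mul_lt_mul_of_pos_left hk (pow_pos hw 3)
    linarith
  subst huweq
  have hH0 := H_nonneg (le_refl u)
  have hsu : s = u := by
    have : 0 ≥ 9 / 4 * s * ((s - u) * (s - u)) := by linarith
    have h2 : (s - u) * (s - u) ≤ 0 := by
      by_contra hc
      linarith [mul_pos (show 0 < 9 / 4 * s by positivity) (not_le.1 hc)]
    have := mul_self_eq_zero.1 (le_antisymm h2 (mul_self_nonneg _))
    linarith
  refine ⟨?_, by rw [hvsq, hsu], by rw [hvsq, hsu]⟩
  have : v / (4 * π / 81) = 1 := by rw [← hσ3, hσe, one_pow]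
  rwa [div_eq_one_iff_eq (by positivity)] at this

variable {f : ℝ → ℝ} {P : ℝ}

/-- **Chord bound without monotonicity.** -/
theorem chord_bound (hm : Measurable f) (hp : Periodic f 1) (h01 : ∀ s, f s ∈ Icc (0 : ℝ) 1)
    (h : TestBound f (fun s => 2 * √(π * f s)) P) {u w : ℝ} (hu : 0 ≤ u) (huw : u ≤ w)
    (hw : 0 < w) (hb : EssBounds f (u ^ 2) (w ^ 2)) :
    2 * ((√π * ((∫ s in (0 : ℝ)..1, f s) + u * w) + 2 * H u w) / (u + w)) ≤ P := by
  have huw2 : u ^ 2 ≤ w ^ 2 := pow_le_pow_left₀ hu huw 2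
  set v := ∫ s in (0 : ℝ)..1, f s with hv
  set C := max 1 (2 * √π) with hC
  have hC1 : ∀ s, |f s| ≤ C := fun s => by
    rw [abs_of_nonneg (h01 s).1]; exact (h01 s).2.trans (le_max_left _ _)
  obtain ⟨F, K, hS⟩ := exists_smoothing h hm hp hC1
    ((measurable_const.mul (hm.const_mul π).sqrt)) (fun s => by simp only [hp s])
    (fun s => ⟨by positivity, le_trans (mul_le_mul_of_nonneg_left (Real.sqrt_le_sqrt
      (mul_le_of_le_one_right Real.pi_nonneg (h01 s).2)) zero_le_two) (le_max_right _ _)⟩)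
  set cl : ℝ → ℝ := fun y => max (u ^ 2) (min (w ^ 2) y) with hcl
  have hclm : ∀ y, cl y ∈ Icc (u ^ 2) (w ^ 2) := fun y =>
    ⟨le_max_left _ _, max_le huw2 (min_le_left _ _)⟩
  have hcle : ∀ y ∈ Icc (u ^ 2) (w ^ 2), cl y = y := fun y hy => by
    simp only [hcl]; rw [min_eq_right hy.2, max_eq_right hy.1]
  have hclc : Continuous cl := by fun_prop
  set g : ℝ → ℝ := fun y => sinC u w (cl y) with hg
  have hgc : Continuous g := (continuousOn_sinC hu).comp_continuous hclc hclm
  have hg0 : ∀ y, 0 ≤ g y := fun y => Real.sqrt_nonneg _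
  have hcos : ContinuousOn (cosC u w) (Icc (u ^ 2) (w ^ 2)) := by
    unfold cosC
    rcases eq_or_lt_of_le hu with rfl | hu'
    · simp only [zero_mul, zero_div, add_zero]; fun_prop
    · exact ContinuousOn.div_const (Real.continuous_sqrt.continuousOn.add
        (continuousOn_const.div Real.continuous_sqrt.continuousOn fun a ha =>
          (Real.sqrt_pos.2 (lt_of_lt_of_le (pow_pos hu' 2) ha.1)).ne')) _
  set c : ℝ → ℝ := fun y => cosC u w (cl y) with hc
  have hcc : Continuous c := hcos.comp_continuous hclc hclm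
  have hcb : ∀ y, c y ∈ Icc (0 : ℝ) 1 := fun y => cosC_mem hu huw (hclm y)
  have hcs : ∀ y, c y ^ 2 + g y ^ 2 = 1 := fun y => by
    simp only [hc, hg, sinC]
    rw [Real.sq_sqrt (by nlinarith [(hcb y).1, (hcb y).2] : 0 ≤ 1 - cosC u w (cl y) ^ 2)]
    ring
  set S : ℝ → ℝ := fun y => ∫ a in u ^ 2..y, g a with hSd
  have hSder : ∀ y, HasDerivAt S (g y) y := fun y => (hgc.integral_hasStrictDerivAt _ y).hasDerivAt
  have hScont : Continuous S := continuous_iff_continuousAt.2 fun y => (hSder y).continuousAt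
  have hSmono : Monotone S := monotone_of_hasDerivAt_nonneg hSder hg0
  -- the horizontal part of the calibration in the limit
  set I : ℕ → ℝ := fun n => ∫ s in (0 : ℝ)..1, c (F n s) * K n s with hI
  have hIlim : Tendsto I atTop (𝓝 (2 * (√π * (v + u * w) / (u + w)))) := by
    have hval : (2 * (√π * (v + u * w) / (u + w)))
        = ∫ s in (0 : ℝ)..1, 2 * √π / (u + w) * (f s + u * w) := by
      rw [intervalIntegral.integral_const_mul, intervalIntegral.integral_add
        (intervalIntegrable_of_bound hm hC1 0 1) intervalIntegrable_const]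
      simp [hv]; ring
    rw [hval]
    refine intervalIntegral.tendsto_integral_filter_of_dominated_convergence (fun _ => C)
      (Eventually.of_forall fun n =>
        ((hcc.comp (hS.smooth n).continuous).mul (hS.contK n)).aestronglyMeasurable)
      (Eventually.of_forall fun n => ae_of_all _ fun s _ => ?_) intervalIntegrable_const ?_
    · rw [norm_mul, Real.norm_of_nonneg (hcb _).1, Real.norm_of_nonneg (hS.memK n s).1]
      exact (mul_le_of_le_one_left (hS.memK n s).1 (hcb _).2).trans (hS.memK n s).2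
    · filter_upwards [hS.limF, hS.limK, hb.mem] with s h1 h2 h3 _
      have e : c (f s) * (2 * √(π * f s)) = 2 * √π / (u + w) * (f s + u * w) := by
        simp only [hc, hcle _ h3, cosC]
        rw [Real.sqrt_mul Real.pi_nonneg]
        rcases (h01 s).1.eq_or_lt with h0 | h0
        · have : u = 0 := by
            by_contra hne
            linarith [h3.1, pow_pos (lt_of_le_of_ne hu (Ne.symm hne)) 2]
          rw [← h0, this]; simp
        · have hq := Real.sq_sqrt h0.le
          have hq0 := (Real.sqrt_pos.2 h0).ne'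
          field_simp
          rw [hq]
      rw [← e]
      exact ((hcc.tendsto _).comp h1).mul h2
  -- the vertical part
  have key : ∀ η > 0, 2 * (√π * (v + u * w) / (u + w))
      + 2 * (S (w ^ 2 - η) - S (u ^ 2 + η)) ≤ P := by
    intro η hη
    obtain ⟨a, ⟨ha, -⟩, haF⟩ := (Measure.exists_mem_of_measure_ne_zero_of_ae (hb.low η hη).ne'
      (ae_restrict_of_ae hS.limF) :
        ∃ x ∈ {s | f s < u ^ 2 + η} ∩ Ioc (0 : ℝ) 1,
          Tendsto (fun n => F n x) atTop (𝓝 (f x)))
    obtain ⟨b₀, ⟨hb', -⟩, hbF⟩ := (Measure.exists_mem_of_measure_ne_zero_of_ae (hb.high η hη).ne'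
      (ae_restrict_of_ae hS.limF) :
        ∃ x ∈ {s | w ^ 2 - η < f s} ∩ Ioc (0 : ℝ) 1,
          Tendsto (fun n => F n x) atTop (𝓝 (f x)))
    set m : ℤ := ⌈a - b₀⌉ with hm'
    set b := b₀ + m with hbdef
    have hab : a ≤ b := by have := Int.le_ceil (a - b₀); linarith
    have hba : b ≤ a + 1 := by have := Int.ceil_lt_add_one (a - b₀); linarith
    have hFb : ∀ n, F n b = F n b₀ := fun n => by
      simpa using (hS.periodicF n).int_mul m b₀
    have step : ∀ n, I n + 2 * (S (F n b₀) - S (F n a)) ≤ P := by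
      intro n
      have hF1 : ContDiff ℝ 1 (F n) := (hS.smooth n).of_le (by norm_cast)
      have hFd : Continuous (deriv (F n)) := hF1.continuous_deriv le_rfl
      have hFc := hF1.continuous
      set G : ℝ → ℝ := fun s => g (F n s) * |deriv (F n) s| with hG
      have hGc : Continuous G := (hgc.comp hFc).mul hFd.abs
      have hftc : ∀ x y, ∫ s in x..y, g (F n s) * deriv (F n) s = S (F n y) - S (F n x) :=
        fun x y => intervalIntegral.integral_eq_sub_of_hasDerivAt
          (fun s _ => (hSder (F n s)).comp s (hF1.differentiable one_ne_zero s).hasDerivAt)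
          (((hgc.comp hFc).mul hFd).intervalIntegrable _ _)
      have habs : ∀ x y, x ≤ y → |S (F n y) - S (F n x)| ≤ ∫ s in x..y, G s := fun x y hxy => by
        rw [← hftc]
        refine (intervalIntegral.abs_integral_le_integral_abs hxy).trans (le_of_eq ?_)
        exact intervalIntegral.integral_congr fun s _ => by
          simp only [hG]; rw [abs_mul, abs_of_nonneg (hg0 _)]
      have h1 := habs a b hab
      have h2 := habs b (a + 1) hba
      rw [hS.periodicF n a, hFb n] at h2
      rw [hFb n] at h1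
      have hsum := intervalIntegral.integral_add_adjacent_intervals
        (hGc.intervalIntegrable (μ := volume) a b) (hGc.intervalIntegrable b (a + 1))
      have hper : Periodic (fun s => c (F n s) * K n s) 1 := fun s => by
        simp only [hS.periodicF n s, hS.periodicK n s]
      have hIa : I n = ∫ s in a..(a + 1), c (F n s) * K n s := by
        rw [hper.intervalIntegral_add_eq a 0, zero_add]
      have hcK : Continuous fun s => c (F n s) * K n s := (hcc.comp hFc).mul (hS.contK n)
      have hmono := intervalIntegral.integral_mono_on (μ := volume)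
        (show a ≤ a + 1 by linarith) ((hcK.add hGc).intervalIntegrable _ _)
        ((((hS.contK n).pow 2).add (hFd.pow 2)).sqrt.intervalIntegrable _ _)
        (fun s _ => Real.le_sqrt_of_sq_le (show (c (F n s) * K n s + G s) ^ 2
            ≤ K n s ^ 2 + deriv (F n) s ^ 2 from ?_))
      · simp only [Pi.add_apply, Pi.pow_apply] at hmono
        rw [intervalIntegral.integral_add (hcK.intervalIntegrable _ _)
          (hGc.intervalIntegrable _ _)] at hmono
        have harc := hS.arc n a
        linarith [le_abs_self (S (F n b₀) - S (F n a)), neg_abs_le (S (F n a) - S (F n b₀)),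
          abs_sub_comm (S (F n b₀)) (S (F n a))]
      · have e := hcs (F n s)
        simp only [hG]
        nlinarith [sq_nonneg (c (F n s) * |deriv (F n) s| - g (F n s) * K n s),
          sq_abs (deriv (F n) s)]
    have hlim := hIlim.add ((((hScont.tendsto _).comp hbF).sub
      ((hScont.tendsto _).comp haF)).const_mul 2)
    have := le_of_tendsto' hlim step
    linarith [hSmono hb'.le, hSmono (show f a ≤ u ^ 2 + η from ha.le)]
  have hfinal : 2 * (√π * (v + u * w) / (u + w)) + 2 * (S (w ^ 2) - S (u ^ 2)) ≤ P := by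
    have ht : Tendsto (fun η => 2 * (√π * (v + u * w) / (u + w))
        + 2 * (S (w ^ 2 - η) - S (u ^ 2 + η))) (𝓝[>] (0 : ℝ))
        (𝓝 (2 * (√π * (v + u * w) / (u + w)) + 2 * (S (w ^ 2) - S (u ^ 2)))) :=
      tendsto_nhdsWithin_of_tendsto_nhds
        ((by fun_prop : Continuous fun η => 2 * (√π * (v + u * w) / (u + w))
          + 2 * (S (w ^ 2 - η) - S (u ^ 2 + η))).tendsto' 0 _ (by simp))
    exact le_of_tendsto ht (eventually_nhdsWithin_of_forall key)
  have hSw : S (w ^ 2) = 2 * H u w / (u + w) := by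
    rw [← integral_sinC hu huw hw]
    refine intervalIntegral.integral_congr fun y hy => ?_
    rw [uIcc_of_le huw2] at hy
    simp only [hg, hcle y hy]
  have hSu : S (u ^ 2) = 0 := intervalIntegral.integral_same
  rw [hSw, hSu, sub_zero] at hfinal
  rw [add_div]
  linarith

/-- In the ball range equality forces arbitrarily small values, except for constant profiles at
the transition volume. -/
theorem low_or_const (hm : Measurable f) (hp : Periodic f 1) (h01 : ∀ s, f s ∈ Icc (0 : ℝ) 1)
    (hv : 0 < ∫ s in (0 : ℝ)..1, f s) (hv0 : (∫ s in (0 : ℝ)..1, f s) ≤ 4 * π / 81)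
    (h : TestBound f (fun s => 2 * √(π * f s)) P)
    (hP : P ≤ 2 * ballTube (∫ s in (0 : ℝ)..1, f s)) :
    (∀ ε > 0, 0 < volume ({s | f s < ε} ∩ Ioc (0 : ℝ) 1)) ∨
      ((∫ s in (0 : ℝ)..1, f s) = 4 * π / 81 ∧ ∀ᵐ s : ℝ, f s = 4 * π / 81) := by
  obtain ⟨a, b, hb, ha0, hab, -⟩ := exists_essBounds hp (ae_of_all _ h01)
  rcases ha0.eq_or_lt with ha | ha
  · exact Or.inl fun ε hε => by simpa [← ha] using hb.low ε hε
  refine Or.inr ?_
  have hb0 : 0 < b := ha.trans_le hab
  have hb' : EssBounds f (√a ^ 2) (√b ^ 2) := by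
    rw [Real.sq_sqrt ha.le, Real.sq_sqrt hb0.le]; exact hb
  have hc := chord_bound hm hp h01 h (Real.sqrt_nonneg a) (Real.sqrt_le_sqrt hab)
    (Real.sqrt_pos.2 hb0) hb'
  obtain ⟨e1, e2, e3⟩ := chord_strict (Real.sqrt_pos.2 ha) (Real.sqrt_le_sqrt hab) hv hv0
    (le_of_mul_le_mul_left (hc.trans hP) two_pos)
  refine ⟨e1, hb'.mem.mono fun s hs => ?_⟩
  rw [e2, e3, e1] at hs
  exact le_antisymm hs.2 hs.1

end Vale.Agent.P232.BallUniq
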