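import Vale.Agent.P232.Uniq.Ball.Equality

/-!
Line lengths of a planar set attaining the disc's value are those of a disc.
-/

open MeasureTheory Set Filter Function Real intervalIntegral
open scoped Topology

namespace Vale.Agent.P232.BallUniq

/-- The mass of the unit disc swept up to the angle `θ`. -/
noncomputable def sweep (θ : ℝ) : ℝ := θ + sin (2 * θ) / 2

lemma strictMono_sweep : StrictMono sweep := fun a b hab => by
  have h := sin_sub_sin (2 * b) (2 * a)
  rw [show (2 * b - 2 * a) / 2 = b - a by ring, show (2 * b + 2 * a) / 2 = b + a by ring] at h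
  have h1 := abs_sin_lt_abs (sub_ne_zero.2 hab.ne')
  rw [abs_of_pos (sub_pos.2 hab)] at h1
  have h2 : |sin (b - a) * cos (b + a)| ≤ |sin (b - a)| := by
    rw [abs_mul]; exact mul_le_of_le_one_right (abs_nonneg _) (abs_cos_le_one _)
  unfold sweep
  linarith [(abs_le.1 h2).1]

lemma continuous_sweep : Continuous sweep := by unfold sweep; fun_prop

lemma surjective_sweep : Surjective sweep :=
  continuous_sweep.surjective
    (tendsto_atTop_mono (fun θ => show θ + -1 ≤ sweep θ by
      unfold sweep; linarith [neg_one_le_sin (2 * θ)])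
      (tendsto_atTop_add_const_right _ _ tendsto_id))
    (tendsto_atBot_mono (fun θ => show sweep θ ≤ θ + 1 by
      unfold sweep; linarith [sin_le_one (2 * θ)])
      (tendsto_atBot_add_const_right _ _ tendsto_id))

/-- The inverse of `sweep`. -/
noncomputable def sweepInv : ℝ → ℝ :=
  (strictMono_sweep.orderIsoOfSurjective sweep surjective_sweep).symm

lemma continuous_sweepInv : Continuous sweepInv :=
  (strictMono_sweep.orderIsoOfSurjective sweep surjective_sweep).symm.continuous

lemma sweep_sweepInv (x : ℝ) : sweep (sweepInv x) = x :=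
  strictMono_sweep.orderIsoOfSurjective_self_symm_apply sweep surjective_sweep x

lemma sweepInv_sweep (θ : ℝ) : sweepInv (sweep θ) = θ :=
  strictMono_sweep.orderIsoOfSurjective_symm_apply_self sweep surjective_sweep θ

lemma sweep_pi_div_two : sweep (π / 2) = π / 2 := by
  simp [sweep, show 2 * (π / 2) = π by ring]

lemma sweep_neg_pi_div_two : sweep (-(π / 2)) = -(π / 2) := by
  simp [sweep, show 2 * -(π / 2) = -π by ring]

lemma sweepInv_mem {x : ℝ} (hx : |x| < π / 2) : sweepInv x ∈ Ioo (-(π / 2)) (π / 2) := by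
  obtain ⟨h1, h2⟩ := abs_lt.1 hx
  constructor
  · rw [← strictMono_sweep.lt_iff_lt, sweep_sweepInv, sweep_neg_pi_div_two]; exact h1
  · rw [← strictMono_sweep.lt_iff_lt, sweep_sweepInv, sweep_pi_div_two]; exact h2

lemma abs_discInv_lt {x : ℝ} (hx : |x| < π / 2) : |sin (sweepInv x)| < 1 := by
  obtain ⟨h1, h2⟩ := sweepInv_mem hx
  have a1 := sin_lt_sin_of_lt_of_le_pi_div_two h1.le le_rfl h2
  have a2 := sin_lt_sin_of_lt_of_le_pi_div_two le_rfl h2.le h1
  rw [sin_pi_div_two] at a1
  rw [sin_neg, sin_pi_div_two] at a2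
  exact abs_lt.2 ⟨a2, a1⟩

lemma hasDerivAt_discInv {x : ℝ} (hx : |x| < π / 2) :
    HasDerivAt (fun y => sin (sweepInv y)) (1 / (2 * √(1 - sin (sweepInv x) ^ 2))) x := by
  have hm := sweepInv_mem hx
  set θ := sweepInv x with hθ
  have hc : 0 < cos θ := cos_pos_of_mem_Ioo hm
  have hd : HasDerivAt sweep (2 * cos θ ^ 2) θ := by
    have d1 : HasDerivAt (fun t : ℝ => 2 * t) 2 θ := by
      simpa using (hasDerivAt_id θ).const_mul (2 : ℝ)
    have d2 := (hasDerivAt_id θ).add (((hasDerivAt_sin _).comp θ d1).div_const 2)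
    refine d2.congr_deriv ?_
    rw [cos_two_mul]; ring
  have hg := HasDerivAt.of_local_left_inverse continuous_sweepInv.continuousAt hd (by positivity)
    (Eventually.of_forall sweep_sweepInv)
  refine ((hasDerivAt_sin _).comp x hg).congr_deriv ?_
  rw [show 1 - sin θ ^ 2 = cos θ ^ 2 by linarith [sin_sq_add_cos_sq θ], Real.sqrt_sq hc.le, ← hθ]
  field_simp

lemma disc_gap {R y τ : ℝ} (hR : 0 < R) (hτ : |τ| < 1) :
    √(1 - τ ^ 2) * 2 + y ^ 2 / (R ^ 2 * (2 * √(1 - τ ^ 2))) - 2 * y / R
      = (y - 2 * R * √(1 - τ ^ 2)) ^ 2 / (R ^ 2 * (2 * √(1 - τ ^ 2))) := by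
  have h0 : 0 < 1 - τ ^ 2 := by nlinarith [abs_lt.1 hτ]
  have := Real.sqrt_pos.2 h0
  field_simp
  ring

/-- The disc as a model. -/
noncomputable def discModel : Model where
  Q x := sin (sweepInv x)
  κ τ := 2 * √(1 - τ ^ 2)
  ρ R := R ^ 2
  L y := if y = 0 then 0 else 2
  q := π / 2
  k := 2
  q_pos := by positivity
  k_pos := by norm_num
  contQ := continuous_sin.comp continuous_sweepInv
  absQ x := abs_sin_le_one _
  botQ := by
    have := sweepInv_sweep (-(π / 2))
    rw [sweep_neg_pi_div_two] at this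
    rw [this, sin_neg, sin_pi_div_two]
  topQ := by
    have := sweepInv_sweep (π / 2)
    rw [sweep_pi_div_two] at this
    rw [this, sin_pi_div_two]
  ltQ _ h := abs_discInv_lt h
  contκ := by fun_prop
  κ_nonneg τ _ := by positivity
  κ_pos τ h := mul_pos two_pos (Real.sqrt_pos.2 (by nlinarith [abs_lt.1 h]))
  κ_le τ _ := mul_le_of_le_one_right zero_le_two
    (by rw [Real.sqrt_le_one]; nlinarith [sq_nonneg τ])
  derivQ _ h := hasDerivAt_discInv h
  contρ := by fun_prop
  ρ_pos R h := by positivity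
  ρ_mono R S h h' := pow_lt_pow_left₀ h' h.le (by norm_num)
  L_meas := Measurable.ite (measurableSet_singleton 0) measurable_const measurable_const
  L_mem y _ := by split_ifs <;> norm_num
  ineq R y τ hR hy hτ := by
    have e := disc_gap (y := y) hR hτ
    split_ifs with h0
    · subst h0; simp
    · have : 0 ≤ (y - 2 * R * √(1 - τ ^ 2)) ^ 2 / (R ^ 2 * (2 * √(1 - τ ^ 2))) := by positivity
      linarith
  eqCase R y τ hR hy hτ h := by
    have e := disc_gap (y := y) hR hτ
    rw [if_neg hy.ne'] at h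
    rw [h, sub_self, eq_comm] at e
    have := mul_pos two_pos (Real.sqrt_pos.2 (show 0 < 1 - τ ^ 2 by nlinarith [abs_lt.1 hτ]))
    rw [div_eq_zero_iff, or_iff_left (by positivity), pow_eq_zero_iff two_ne_zero, sub_eq_zero] at e
    rw [e]; field_simp

variable {f : ℝ → ℝ} {P r : ℝ}

/-- **Line lengths in the equality case of the disc.** -/
theorem disc_profile (hm : Measurable f) (hp : Periodic f 1) (h01 : ∀ s, f s ∈ Icc (0 : ℝ) 1)
    (hr : 0 < r) (hr1 : π * r < 1) (hv : (∫ s in (0 : ℝ)..1, f s) = π * r ^ 2)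
    (h : TestBound f (fun s => 2 * occ f s) P) (hP : P ≤ 2 * π * r) :
    ∃ c, ∀ᵐ s : ℝ, f s = 2 * √(r ^ 2 - dnear (s - c) ^ 2) := by
  have hocc : (fun s => 2 * occ f s) = fun s => discModel.L (f s) := funext fun s => by
    show _ = if f s = 0 then (0 : ℝ) else 2
    unfold occ; split_ifs <;> simp
  have hlow : ∀ ε > 0, 0 < volume ({s | f s < ε} ∩ Ioc (0 : ℝ) 1) := by
    intro ε hε
    refine pos_iff_ne_zero.2 fun h0 => ?_
    have hb := h (fun _ => 0) contDiff_const (fun _ => rfl) fun _ => by norm_num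
    have h1 : ∫ s in (0 : ℝ)..1, (f s * deriv (fun _ => (0 : ℝ)) s
        + 2 * occ f s * √(1 - (0 : ℝ) ^ 2)) = 2 := by
      rw [intervalIntegral.integral_congr_ae (g := fun _ => (2 : ℝ))]
      · simp
      · filter_upwards [measure_eq_zero_iff_ae_notMem.1 h0] with s hs hmem
        rw [uIoc_of_le zero_le_one] at hmem
        have : f s ≠ 0 := fun e => hs ⟨show f s < ε by rw [e]; exact hε, hmem⟩
        simp [occ, this]
    rw [h1] at hb
    linarith
  rw [hocc] at h
  obtain ⟨-, c, hc⟩ := discModel.profile_eq hm hp h01 hr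
    (show _ = 2 * (π / 2) * r ^ 2 by rw [hv]; ring) h
    (hP.trans (le_of_eq (show _ = 2 * (∫ s in (0 : ℝ)..1, f s) / r by rw [hv]; field_simp)))
    hlow
  refine ⟨c, hc.mono fun s hs => ?_⟩
  rw [hs]
  generalize dnear (s - c) = x
  unfold Model.prof
  split_ifs with hx
  · show 2 * √(1 - (x / r) ^ 2) * r ^ 2 / r = _
    rw [show r ^ 2 - x ^ 2 = r ^ 2 * (1 - (x / r) ^ 2) by field_simp,
      Real.sqrt_mul (sq_nonneg r), Real.sqrt_sq hr.le]
    field_simp
  · rw [Real.sqrt_eq_zero_of_nonpos (by nlinarith [sq_abs x, not_lt.1 hx]), mul_zero]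

end Vale.Agent.P232.BallUniq
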