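import Vale.Agent.P232.Uniq.Ball.Smooth

/-!
Monotone rearrangement calibration of a periodic profile and its equality case, for an abstract
model (spheres and circles are the instances).
-/

open MeasureTheory Set Filter Function Real intervalIntegral
open scoped Topology

namespace Vale.Agent.P232.BallUniq

/-- The data of a model shape: `Q` inverts its mass function, `κ` is its profile, `ρ` its scale. -/
structure Model where
  Q : ℝ → ℝ
  κ : ℝ → ℝ
  ρ : ℝ → ℝ
  L : ℝ → ℝ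
  q : ℝ
  k : ℝ
  q_pos : 0 < q
  k_pos : 0 < k
  contQ : Continuous Q
  absQ : ∀ x, |Q x| ≤ 1
  botQ : Q (-q) = -1
  topQ : Q q = 1
  ltQ : ∀ x, |x| < q → |Q x| < 1
  contκ : Continuous κ
  κ_nonneg : ∀ τ, |τ| ≤ 1 → 0 ≤ κ τ
  κ_pos : ∀ τ, |τ| < 1 → 0 < κ τ
  κ_le : ∀ τ, |τ| ≤ 1 → κ τ ≤ 2
  derivQ : ∀ x, |x| < q → HasDerivAt Q (1 / κ (Q x)) x
  contρ : Continuous ρ
  ρ_pos : ∀ R, 0 < R → 0 < ρ R
  ρ_mono : ∀ R S, 0 < R → R < S → ρ R < ρ S
  L_meas : Measurable L
  L_mem : ∀ y ∈ Icc (0 : ℝ) 1, L y ∈ Icc (0 : ℝ) 4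
  ineq : ∀ R y τ, 0 < R → 0 ≤ y → |τ| < 1 →
    k * y / R ≤ √(1 - τ ^ 2) * L y + y ^ 2 / (ρ R * κ τ)
  eqCase : ∀ R y τ, 0 < R → 0 < y → |τ| < 1 →
    √(1 - τ ^ 2) * L y + y ^ 2 / (ρ R * κ τ) = k * y / R → y = κ τ * ρ R / R

namespace Model

variable (M : Model) {f : ℝ → ℝ} {R P : ℝ}

/-- The position in the model shape matching `s` in the window from `a` to `b`. -/
noncomputable def pos (R : ℝ) (f : ℝ → ℝ) (a b s : ℝ) : ℝ :=
  M.Q (((∫ t in a..s, f t) - (∫ t in a..b, f t) / 2) / M.ρ R)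

/-- The calibrated density. -/
noncomputable def dens (R y l τ : ℝ) : ℝ := √(1 - τ ^ 2) * l + y ^ 2 / (M.ρ R * M.κ τ)

/-- The defect, normalised so that it is continuous in the position. -/
noncomputable def gain (R y τ : ℝ) : ℝ :=
  (√(1 - τ ^ 2) * M.κ τ * M.L y + y ^ 2 / M.ρ R - M.k * y * M.κ τ / R) / 2

/-- The profile of the model shape of radius `r`. -/
noncomputable def prof (r x : ℝ) : ℝ := if |x| < r then M.κ (x / r) * M.ρ r / r else 0

lemma gain_eq {τ : ℝ} (hR : 0 < R) (hτ : |τ| < 1) (y : ℝ) :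
    M.gain R y τ = M.κ τ / 2 * (M.dens R y (M.L y) τ - M.k * y / R) := by
  have := (M.ρ_pos R hR).ne'
  have := (M.κ_pos τ hτ).ne'
  simp only [gain, dens]
  field_simp

lemma gain_nonneg {y τ : ℝ} (hR : 0 < R) (hy : 0 ≤ y) (hτ : |τ| < 1) : 0 ≤ M.gain R y τ := by
  rw [M.gain_eq hR hτ]
  exact mul_nonneg (div_nonneg (M.κ_pos τ hτ).le zero_le_two)
    (sub_nonneg.2 (M.ineq R y τ hR hy hτ))

lemma gain_le {y τ : ℝ} (hR : 0 < R) (hy : 0 ≤ y) (hτ : |τ| < 1) :
    M.gain R y τ + M.k * y / R ≤ M.dens R y (M.L y) τ := by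
  rw [M.gain_eq hR hτ]
  have := M.κ_le τ hτ.le
  have h := mul_le_mul_of_nonneg_right (show M.κ τ / 2 ≤ 1 by linarith)
    (sub_nonneg.2 (M.ineq R y τ hR hy hτ))
  simp only [dens] at h ⊢
  linarith

lemma abs_gain_le {y τ : ℝ} (hR : 0 < R) (hy : y ∈ Icc (0 : ℝ) 1) (hτ : |τ| ≤ 1) :
    |M.gain R y τ| ≤ (8 + 1 / M.ρ R + 2 * M.k / R) / 2 := by
  have hρ := M.ρ_pos R hR
  have hk := M.k_pos
  have h0 := M.κ_nonneg τ hτ
  have h2 := M.κ_le τ hτ
  have hL := M.L_mem y hy
  have hs0 := Real.sqrt_nonneg (1 - τ ^ 2)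
  have hs1 : √(1 - τ ^ 2) ≤ 1 := by
    rw [Real.sqrt_le_one]; nlinarith [sq_nonneg τ]
  have a1 : √(1 - τ ^ 2) * M.κ τ * M.L y ≤ 1 * 2 * 4 :=
    mul_le_mul (mul_le_mul hs1 h2 h0 zero_le_one) hL.2 hL.1 (by norm_num)
  have a2 : y ^ 2 / M.ρ R ≤ 1 / M.ρ R := div_le_div_of_nonneg_right
    (by nlinarith [hy.1, hy.2]) hρ.le
  have a3 : M.k * y * M.κ τ / R ≤ 2 * M.k / R := by
    refine div_le_div_of_nonneg_right ?_ hR.le
    calc M.k * y * M.κ τ ≤ M.k * 1 * 2 := by gcongr; exact hy.2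
      _ = _ := by ring
  have b1 : 0 ≤ √(1 - τ ^ 2) * M.κ τ * M.L y := mul_nonneg (mul_nonneg hs0 h0) hL.1
  have b2 : 0 ≤ y ^ 2 / M.ρ R := by positivity
  have b3 : 0 ≤ M.k * y * M.κ τ / R :=
    div_nonneg (mul_nonneg (mul_nonneg hk.le hy.1) h0) hR.le
  have c2 : 0 ≤ 1 / M.ρ R := by positivity
  have c3 : 0 ≤ 2 * M.k / R := by positivity
  rw [abs_le]
  unfold gain
  constructor <;> linarith

variable {a b s : ℝ}

lemma continuous_pos (hf : ∀ x y, IntervalIntegrable f volume x y) (R a b : ℝ) :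
    Continuous (M.pos R f a b) :=
  M.contQ.comp (((continuous_primitive hf a).sub continuous_const).div_const _)

lemma abs_arg_le (hf : ∀ x y, IntervalIntegrable f volume x y) (h0 : ∀ x, 0 ≤ f x) (hR : 0 < R)
    (hs : s ∈ Icc a b) :
    |((∫ t in a..s, f t) - (∫ t in a..b, f t) / 2) / M.ρ R|
      ≤ (∫ t in a..b, f t) / (2 * M.ρ R) := by
  have h1 := intervalIntegral.integral_nonneg (μ := volume) hs.1 fun t _ => h0 t
  have h2 := intervalIntegral.integral_nonneg (μ := volume) hs.2 fun t _ => h0 t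
  have h3 := integral_add_adjacent_intervals (hf a s) (hf s b)
  have hρ := M.ρ_pos R hR
  rw [abs_div, abs_of_pos hρ, ← div_div]
  refine div_le_div_of_nonneg_right (abs_le.2 ⟨?_, ?_⟩) hρ.le <;> linarith

lemma abs_arg_lt (hf : ∀ x y, IntervalIntegrable f volume x y) (h0 : ∀ x, 0 ≤ f x) (hR : 0 < R)
    (hw : ∫ t in a..b, f t < 2 * M.q * M.ρ R) (hs : s ∈ Icc a b) :
    |((∫ t in a..s, f t) - (∫ t in a..b, f t) / 2) / M.ρ R| < M.q := by
  refine (M.abs_arg_le hf h0 hR hs).trans_lt ?_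
  rw [div_lt_iff₀ (mul_pos two_pos (M.ρ_pos R hR))]
  linarith

lemma abs_pos_lt (hf : ∀ x y, IntervalIntegrable f volume x y) (h0 : ∀ x, 0 ≤ f x) (hR : 0 < R)
    (hw : ∫ t in a..b, f t < 2 * M.q * M.ρ R) (hs : s ∈ Icc a b) : |M.pos R f a b s| < 1 :=
  M.ltQ _ (M.abs_arg_lt hf h0 hR hw hs)

/-- The calibration of a smooth profile on one window. -/
theorem calib {F K : ℝ → ℝ} (hF : ContDiff ℝ 1 F) (hK : Continuous K) (h0 : ∀ x, 0 ≤ F x)
    (hab : a ≤ b) (hR : 0 < R) (hw : ∫ t in a..b, F t < 2 * M.q * M.ρ R) :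
    ∫ s in a..b, M.dens R (F s) (K s) (M.pos R F a b s)
      ≤ (∫ s in a..b, √(K s ^ 2 + deriv F s ^ 2)) + F a + F b := by
  have hFc := hF.continuous
  have hFi : ∀ x y, IntervalIntegrable F volume x y := fun x y => hFc.intervalIntegrable x y
  have hFd : Continuous (deriv F) := hF.continuous_deriv le_rfl
  set T := M.pos R F a b with hT
  have hTc : Continuous T := M.continuous_pos hFi R a b
  have hTlt : ∀ s ∈ Icc a b, |T s| < 1 := fun s hs => M.abs_pos_lt hFi h0 hR hw hs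
  set T' : ℝ → ℝ := fun s => 1 / M.κ (T s) * (F s / M.ρ R) with hT'
  have hder : ∀ s ∈ Icc a b, HasDerivAt T (T' s) s := fun s hs =>
    (M.derivQ _ (M.abs_arg_lt hFi h0 hR hw hs)).comp s
      (((hFc.integral_hasStrictDerivAt a s).hasDerivAt.sub_const _).div_const _)
  have hκ : ∀ s ∈ Icc a b, M.κ (T s) ≠ 0 := fun s hs => (M.κ_pos _ (hTlt s hs)).ne'
  have hT'c : ContinuousOn T' (Icc a b) :=
    (continuousOn_const.div (M.contκ.comp hTc).continuousOn hκ).mul
      (hFc.div_const _).continuousOn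
  have hI : uIcc a b = Icc a b := uIcc_of_le hab
  have hparts := integral_mul_deriv_eq_deriv_mul (u := F) (v := T) (u' := deriv F) (v' := T')
    (fun x _ => (hF.differentiable one_ne_zero x).hasDerivAt)
    (fun x hx => hder x (by rwa [hI] at hx)) (hFd.intervalIntegrable a b)
    (hT'c.intervalIntegrable_of_Icc hab)
  have c1 : Continuous fun s => √(1 - T s ^ 2) * K s :=
    ((continuous_const.sub (hTc.pow 2)).sqrt).mul hK
  have c2 : ContinuousOn (fun s => F s * T' s) (Icc a b) := hFc.continuousOn.mul hT'c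
  have c3 : Continuous fun s => deriv F s * T s := hFd.mul hTc
  have e : ∫ s in a..b, M.dens R (F s) (K s) (T s)
      = (∫ s in a..b, √(1 - T s ^ 2) * K s) + ∫ s in a..b, F s * T' s := by
    rw [← intervalIntegral.integral_add (c1.intervalIntegrable a b)
      (c2.intervalIntegrable_of_Icc hab)]
    refine intervalIntegral.integral_congr fun s hs => ?_
    have := hκ s (by rwa [hI] at hs)
    simp only [dens, hT']
    field_simp
  have hm : ∫ s in a..b, (√(1 - T s ^ 2) * K s - deriv F s * T s)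
      ≤ ∫ s in a..b, √(K s ^ 2 + deriv F s ^ 2) := by
    refine intervalIntegral.integral_mono_on hab ((c1.sub c3).intervalIntegrable a b)
      (((hK.pow 2).add (hFd.pow 2)).sqrt.intervalIntegrable a b)
      fun s hs => Real.le_sqrt_of_sq_le ?_
    have hq : √(1 - T s ^ 2) ^ 2 = 1 - T s ^ 2 :=
      Real.sq_sqrt (by nlinarith [abs_lt.1 (hTlt s hs)])
    nlinarith [sq_nonneg (T s * K s + √(1 - T s ^ 2) * deriv F s)]
  rw [intervalIntegral.integral_sub (c1.intervalIntegrable a b) (c3.intervalIntegrable a b)] at hm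
  rw [e, hparts]
  have ha := hTlt a (left_mem_Icc.2 hab)
  have hb := hTlt b (right_mem_Icc.2 hab)
  nlinarith [mul_le_mul_of_nonneg_left (abs_lt.1 hb).2.le (h0 b),
    mul_le_mul_of_nonneg_left (abs_lt.1 ha).1.le (h0 a)]

lemma exists_κ_bound {c : ℝ} (hc : c < M.q) :
    ∃ δ > 0, ∀ x, |x| ≤ c → δ ≤ M.κ (M.Q x) := by
  rcases lt_or_ge c 0 with h | h
  · exact ⟨1, one_pos, fun x hx => absurd ((abs_nonneg x).trans hx) (not_le.2 h)⟩
  obtain ⟨x0, hx0, hmin⟩ := (isCompact_Icc (a := -c) (b := c)).exists_isMinOn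
    ⟨0, neg_nonpos.2 h, h⟩ (M.contκ.comp M.contQ).continuousOn
  exact ⟨_, M.κ_pos _ (M.ltQ x0 ((abs_le.2 hx0).trans_lt hc)),
    fun x hx => hmin (abs_le.1 hx)⟩

lemma gain_intervalIntegrable (hm : Measurable f) (h01 : ∀ x, f x ∈ Icc (0 : ℝ) 1) (hR : 0 < R)
    {τ : ℝ → ℝ} (hτ : Continuous τ) (h1 : ∀ x, |τ x| ≤ 1) (a b : ℝ) :
    IntervalIntegrable (fun s => M.gain R (f s) (τ s)) volume a b := by
  refine (intervalIntegrable_const (c := (8 + 1 / M.ρ R + 2 * M.k / R) / 2)).mono_fun'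
    ?_ (ae_of_all _ fun s => by
      simp only [Real.norm_eq_abs]; exact M.abs_gain_le hR (h01 s) (h1 s))
  exact ((((((measurable_const.sub (hτ.measurable.pow_const 2)).sqrt).mul
    (M.contκ.measurable.comp hτ.measurable)).mul (M.L_meas.comp hm)).add
    ((hm.pow_const 2).div_const _)).sub (((hm.const_mul _).mul
    (M.contκ.measurable.comp hτ.measurable)).div_const _)).div_const _ |>.aestronglyMeasurable

variable {F K : ℕ → ℝ → ℝ}

/-- The calibration in the limit of smoothings, on one window. -/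
theorem window (hm : Measurable f) (h01 : ∀ x, f x ∈ Icc (0 : ℝ) 1)
    (hS : IsSmoothing f (fun x => M.L (f x)) P 4 F K) (hab : a ≤ b) (hR : 0 < R)
    (hw : ∫ t in a..b, f t < 2 * M.q * M.ρ R) :
    ∃ J : ℝ, (∫ s in a..b, (M.gain R (f s) (M.pos R f a b s) + M.k * f s / R)) ≤ J ∧
      ∃ g : ℕ → ℝ, Tendsto g atTop (𝓝 J) ∧ ∀ᶠ n in atTop, g n
        ≤ (∫ s in a..b, √(K n s ^ 2 + deriv (F n) s ^ 2)) + F n a + F n b := by
  have hρ := M.ρ_pos R hR
  have hC : ∀ x, |f x| ≤ 1 := fun x => by rw [abs_of_nonneg (h01 x).1]; exact (h01 x).2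
  have hfi := intervalIntegrable_of_bound hm hC
  have hf0 : ∀ x, 0 ≤ f x := fun x => (h01 x).1
  have hF01 := hS.memF (ae_of_all _ h01)
  have hF0 : ∀ n x, 0 ≤ F n x := fun n x => (hF01 n x).1
  have hFc : ∀ n, Continuous (F n) := fun n => (hS.smooth n).continuous
  have hFi : ∀ n x y, IntervalIntegrable (F n) volume x y :=
    fun n x y => (hFc n).intervalIntegrable x y
  have hG : ∀ x, Tendsto (fun n => ∫ t in a..x, F n t) atTop (𝓝 (∫ t in a..x, f t)) := fun x =>
    tendsto_integral_filter_of_dominated_convergence (fun _ => 1)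
      (Eventually.of_forall fun n => (hFc n).aestronglyMeasurable)
      (Eventually.of_forall fun n => ae_of_all _ fun t _ => by
        rw [Real.norm_of_nonneg (hF0 n t)]; exact (hF01 n t).2)
      intervalIntegrable_const (hS.limF.mono fun t ht _ => ht)
  set w := ∫ t in a..b, f t with hwd
  set c := (w / (2 * M.ρ R) + M.q) / 2 with hcd
  have hwq : w / (2 * M.ρ R) < M.q := by rw [div_lt_iff₀ (by positivity)]; linarith
  have hcq : c < M.q := by rw [hcd]; linarith
  have hwc : w / (2 * M.ρ R) < c := by rw [hcd]; linarith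
  obtain ⟨δ, hδ, hδb⟩ := M.exists_κ_bound hcq
  have hev : ∀ᶠ n in atTop, (∫ t in a..b, F n t) / (2 * M.ρ R) < c :=
    ((hG b).div_const _).eventually_lt_const hwc
  have hfd : ∀ s ∈ Icc a b, δ ≤ M.κ (M.pos R f a b s) := fun s hs =>
    hδb _ ((M.abs_arg_le hfi hf0 hR hs).trans hwc.le)
  have hbd : ∀ y l τ, y ∈ Icc (0 : ℝ) 1 → l ∈ Icc (0 : ℝ) 4 → δ ≤ M.κ τ →
      M.dens R y l τ ∈ Icc 0 (4 + 1 / (M.ρ R * δ)) := fun y l τ hy hl hτ => by
    have hκ : 0 < M.κ τ := hδ.trans_le hτ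
    refine ⟨add_nonneg (mul_nonneg (Real.sqrt_nonneg _) hl.1) (by positivity), add_le_add ?_ ?_⟩
    · exact (mul_le_of_le_one_left hl.1 (by rw [Real.sqrt_le_one]; nlinarith [sq_nonneg τ])).trans
        hl.2
    · exact div_le_div₀ zero_le_one (by nlinarith [hy.1, hy.2]) (by positivity)
        (mul_le_mul_of_nonneg_left hτ hρ.le)
  have hmeas : ∀ {u l τ : ℝ → ℝ}, Measurable u → Measurable l → Measurable τ →
      Measurable fun s => M.dens R (u s) (l s) (τ s) := fun hu hl hτ =>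
    (((measurable_const.sub (hτ.pow_const 2)).sqrt).mul hl).add
      ((hu.pow_const 2).div (measurable_const.mul (M.contκ.measurable.comp hτ)))
  have hpm := (M.continuous_pos hfi R a b).measurable
  refine ⟨∫ s in a..b, M.dens R (f s) (M.L (f s)) (M.pos R f a b s), ?_,
    fun n => ∫ s in a..b, M.dens R (F n s) (K n s) (M.pos R (F n) a b s), ?_, ?_⟩
  · refine intervalIntegral.integral_mono_on hab ?_ ?_
      fun s hs => M.gain_le hR (hf0 s) (M.abs_pos_lt hfi hf0 hR hw hs)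
    · exact (M.gain_intervalIntegrable hm h01 hR (M.continuous_pos hfi R a b) (fun s => M.absQ _)
        a b).add (((hfi a b).const_mul M.k).div_const R)
    · refine (intervalIntegrable_const (c := 4 + 1 / (M.ρ R * δ))).mono_fun'
        (hmeas hm (M.L_meas.comp hm) hpm).aestronglyMeasurable
        ((ae_restrict_iff' measurableSet_uIoc).2 (ae_of_all _ fun s hs => ?_))
      rw [uIoc_of_le hab] at hs
      have := hbd _ _ (M.pos R f a b s) (h01 s) (M.L_mem _ (h01 s)) (hfd s (Ioc_subset_Icc_self hs))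
      simp only [Real.norm_of_nonneg this.1]
      exact this.2
  · refine tendsto_integral_filter_of_dominated_convergence (fun _ => 4 + 1 / (M.ρ R * δ))
      (Eventually.of_forall fun n => (hmeas (hFc n).measurable (hS.contK n).measurable
        (M.continuous_pos (hFi n) R a b).measurable).aestronglyMeasurable)
      (hev.mono fun n hn => ae_of_all _ fun s hs => ?_) intervalIntegrable_const ?_
    · rw [uIoc_of_le hab] at hs
      have := hbd _ _ (M.pos R (F n) a b s) (hF01 n s) (hS.memK n s)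
        (hδb _ ((M.abs_arg_le (hFi n) (hF0 n) hR (Ioc_subset_Icc_self hs)).trans hn.le))
      rw [Real.norm_of_nonneg this.1]
      exact this.2
    · filter_upwards [hS.limF, hS.limK] with s h1 h2 hs
      rw [uIoc_of_le hab] at hs
      have h3 : Tendsto (fun n => M.pos R (F n) a b s) atTop (𝓝 (M.pos R f a b s)) :=
        (M.contQ.tendsto _).comp (((hG s).sub ((hG b).div_const 2)).div_const _)
      have hne : M.ρ R * M.κ (M.pos R f a b s) ≠ 0 :=
        (mul_pos hρ (hδ.trans_le (hfd s (Ioc_subset_Icc_self hs)))).ne'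
      exact (((h3.pow 2).const_sub 1).sqrt.mul h2).add
        ((h1.pow 2).div (((M.contκ.tendsto _).comp h3).const_mul _) hne)
  · filter_upwards [hev] with n hn
    refine M.calib ((hS.smooth n).of_le (by norm_cast)) (hS.contK n) (hF0 n) hab hR ?_
    have := hn.trans hcq
    rw [div_lt_iff₀ (by positivity)] at this
    linarith

/-- Two adjacent windows filling a period. -/
theorem two_windows (hm : Measurable f) (hp : Periodic f 1) (h01 : ∀ x, f x ∈ Icc (0 : ℝ) 1)
    (hS : IsSmoothing f (fun x => M.L (f x)) P 4 F K) {m : ℝ} (ham : a ≤ m) (hma : m ≤ a + 1)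
    (hla : Tendsto (fun n => F n a) atTop (𝓝 (f a)))
    (hlm : Tendsto (fun n => F n m) atTop (𝓝 (f m))) (hR : 0 < R)
    (hw1 : ∫ t in a..m, f t < 2 * M.q * M.ρ R)
    (hw2 : ∫ t in m..(a + 1), f t < 2 * M.q * M.ρ R) :
    M.k * (∫ t in (0 : ℝ)..1, f t) / R + (∫ s in a..m, M.gain R (f s) (M.pos R f a m s))
      + (∫ s in m..(a + 1), M.gain R (f s) (M.pos R f m (a + 1) s)) ≤ P + 2 * f a + 2 * f m := by
  have hC : ∀ x, |f x| ≤ 1 := fun x => by rw [abs_of_nonneg (h01 x).1]; exact (h01 x).2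
  have hfi := intervalIntegrable_of_bound hm hC
  obtain ⟨J1, hJ1, g1, hg1, he1⟩ := M.window hm h01 hS ham hR hw1
  obtain ⟨J2, hJ2, g2, hg2, he2⟩ := M.window hm h01 hS hma hR hw2
  have hlim : J1 + J2 ≤ P + 2 * f a + 2 * f m := by
    refine le_of_tendsto_of_tendsto (hg1.add hg2)
      (((hla.const_mul 2).const_add P).add (hlm.const_mul 2)) ?_
    filter_upwards [he1, he2] with n h1 h2
    have hc : Continuous fun s => √(K n s ^ 2 + deriv (F n) s ^ 2) :=
      (((hS.contK n).pow 2).add ((((hS.smooth n).of_le (by norm_cast :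
        (1 : WithTop ℕ∞) ≤ ((⊤ : ℕ∞) : WithTop ℕ∞))).continuous_deriv le_rfl).pow 2)).sqrt
    have hadd := integral_add_adjacent_intervals (μ := volume) (hc.intervalIntegrable a m)
      (hc.intervalIntegrable m (a + 1))
    linarith [hS.arc n a, hS.periodicF n a]
  have hgi := fun x y => M.gain_intervalIntegrable hm h01 hR
    (M.continuous_pos hfi R x y) (fun s => M.absQ _) x y
  rw [intervalIntegral.integral_add (hgi a m) (((hfi a m).const_mul _).div_const _),
    intervalIntegral.integral_div, intervalIntegral.integral_const_mul] at hJ1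
  rw [intervalIntegral.integral_add (hgi m (a + 1)) (((hfi _ _).const_mul _).div_const _),
    intervalIntegral.integral_div, intervalIntegral.integral_const_mul] at hJ2
  have hsum := integral_add_adjacent_intervals (hfi a m) (hfi m (a + 1))
  rw [hp.intervalIntegral_add_eq a 0, zero_add] at hsum
  rw [← hsum, mul_add, add_div]
  linarith

end Model

end Vale.Agent.P232.BallUniq
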