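import Vale.Agent.P232.Uniq.TestBound

/-!
Smoothing of a profile obeying the test inequality: the graph length bound
`∫ √(K² + F'²) ≤ P` for mollified profiles.
-/

open MeasureTheory Set Filter Function
open scoped Topology Convolution ContDiff

namespace Vale.Agent.P232.BallUniq

/-- The mollifiers on the line. -/
noncomputable def bump1 (n : ℕ) : ContDiffBump (0 : ℝ) where
  rIn := 1 / (2 * (n + 1))
  rOut := 1 / (n + 1)
  rIn_pos := by positivity
  rIn_lt_rOut := by
    rw [div_lt_div_iff₀ (by positivity) (by positivity)]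
    linarith [(Nat.cast_nonneg n : (0 : ℝ) ≤ n)]

/-- The mollified function. -/
noncomputable def sm (n : ℕ) (f : ℝ → ℝ) : ℝ → ℝ :=
  (bump1 n).normed volume ⋆[ContinuousLinearMap.lsmul ℝ ℝ, volume] f

lemma sm_apply (n : ℕ) (f : ℝ → ℝ) (s : ℝ) :
    sm n f s = ∫ t, (bump1 n).normed volume t * f (s - t) := rfl

variable {f : ℝ → ℝ}

lemma locallyIntegrable_of_bound (hf : Measurable f) {C : ℝ} (hC : ∀ s, |f s| ≤ C) :
    LocallyIntegrable f volume :=
  (locallyIntegrable_const C).mono hf.aestronglyMeasurable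
    (ae_of_all _ fun s => by
      rw [Real.norm_eq_abs, Real.norm_of_nonneg ((abs_nonneg _).trans (hC s))]; exact hC s)

lemma intervalIntegrable_of_bound (hf : Measurable f) {C : ℝ} (hC : ∀ s, |f s| ≤ C) (a b : ℝ) :
    IntervalIntegrable f volume a b :=
  intervalIntegrable_const.mono_fun' (g := fun _ => C) hf.aestronglyMeasurable
    (ae_of_all _ fun s => by simpa using hC s)

lemma sm_contDiff (n : ℕ) (hf : LocallyIntegrable f volume) : ContDiff ℝ ∞ (sm n f) :=
  (bump1 n).hasCompactSupport_normed.contDiff_convolution_left _ (bump1 n).contDiff_normed hf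

lemma sm_periodic (n : ℕ) (hp : Periodic f 1) : Periodic (sm n f) 1 := fun s => by
  simp only [sm_apply, show ∀ t, f (s + 1 - t) = f (s - t) from fun t => by
    rw [show s + 1 - t = s - t + 1 by ring, hp]]

lemma sm_integrable (n : ℕ) (hf : Measurable f) {C : ℝ} (hC : ∀ s, |f s| ≤ C) (s : ℝ) :
    Integrable fun t => (bump1 n).normed volume t * f (s - t) := by
  refine ((bump1 n).integrable_normed.mul_const C).mono'
    ((bump1 n).continuous_normed.measurable.mul (hf.comp (by fun_prop))).aestronglyMeasurable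
    (ae_of_all _ fun t => ?_)
  rw [norm_mul, Real.norm_of_nonneg ((bump1 n).nonneg_normed t), Real.norm_eq_abs]
  exact mul_le_mul_of_nonneg_left (hC _) ((bump1 n).nonneg_normed t)

lemma sm_mem (n : ℕ) (hf : Measurable f) {C : ℝ} (hC : ∀ s, |f s| ≤ C) {a b : ℝ}
    (hab : ∀ᵐ s : ℝ, f s ∈ Icc a b) (s : ℝ) : sm n f s ∈ Icc a b := by
  have hae : ∀ᵐ t : ℝ, f (s - t) ∈ Icc a b := by
    have := (Measure.measurePreserving_sub_left volume s).quasiMeasurePreserving.ae hab
    exact this
  have hi := sm_integrable n hf hC s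
  have hq : Integrable ((bump1 n).normed (volume : Measure ℝ)) volume := (bump1 n).integrable_normed
  have h1 : ∫ t, (bump1 n).normed volume t = (1 : ℝ) := (bump1 n).integral_normed
  rw [sm_apply]
  constructor
  · calc a = ∫ t, (bump1 n).normed volume t * a := by rw [integral_mul_const, h1, one_mul]
      _ ≤ _ := integral_mono_ae (hq.mul_const a) hi (hae.mono fun t ht =>
          mul_le_mul_of_nonneg_left ht.1 ((bump1 n).nonneg_normed t))
  · calc (∫ t, (bump1 n).normed volume t * f (s - t))
        ≤ ∫ t, (bump1 n).normed volume t * b := integral_mono_ae hi (hq.mul_const b)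
          (hae.mono fun t ht => mul_le_mul_of_nonneg_left ht.2 ((bump1 n).nonneg_normed t))
      _ = b := by rw [integral_mul_const, h1, one_mul]

lemma ae_tendsto_sm (hf : LocallyIntegrable f volume) :
    ∀ᵐ s : ℝ, Tendsto (fun n => sm n f s) atTop (𝓝 (f s)) :=
  ContDiffBump.ae_convolution_tendsto_right_of_locallyIntegrable (K := 2)
    tendsto_one_div_add_atTop_nhds_zero_nat
    (Eventually.of_forall fun n => le_of_eq (by simp only [bump1]; field_simp)) hf

/-- Pairing a mollified function with a periodic one. -/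
lemma integral_sm_mul (n : ℕ) (hf : Measurable f) (hp : Periodic f 1) {C : ℝ}
    (hC : ∀ s, |f s| ≤ C) {h : ℝ → ℝ} (hh : Continuous h) (hhp : Periodic h 1) :
    ∫ s in (0 : ℝ)..1, sm n f s * h s
      = ∫ t, (bump1 n).normed volume t * ∫ s in (0 : ℝ)..1, f s * h (s + t) := by
  obtain ⟨D, hD⟩ : ∃ D, ∀ s, |h s| ≤ D := by
    obtain ⟨D, hD⟩ := isBounded_iff_forall_norm_le.1 (hhp.isBounded_of_continuous one_ne_zero hh)
    exact ⟨D, fun s => hD _ (mem_range_self s)⟩
  have hqc : Continuous ((bump1 n).normed (volume : Measure ℝ)) := (bump1 n).continuous_normed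
  have hint : Integrable (Function.uncurry fun s t =>
      (bump1 n).normed volume t * f (s - t) * h s)
      ((volume.restrict (Ioc (0 : ℝ) 1)).prod volume) := by
    refine ((((bump1 n).integrable_normed (μ := volume)).comp_snd
      (volume.restrict (Ioc (0 : ℝ) 1))).const_mul (C * D)).mono' ?_ (ae_of_all _ fun ⟨s, t⟩ => ?_)
    · exact (((hqc.measurable.comp measurable_snd).mul
        (hf.comp (measurable_fst.sub measurable_snd))).mul
        (hh.measurable.comp measurable_fst)).aestronglyMeasurable
    · simp only [Function.uncurry, norm_mul, Real.norm_eq_abs,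
        abs_of_nonneg ((bump1 n).nonneg_normed t)]
      calc (bump1 n).normed volume t * |f (s - t)| * |h s|
          ≤ (bump1 n).normed volume t * C * D :=
            mul_le_mul (mul_le_mul_of_nonneg_left (hC _) ((bump1 n).nonneg_normed t)) (hD _)
              (abs_nonneg _) (mul_nonneg ((bump1 n).nonneg_normed t)
                ((abs_nonneg _).trans (hC 0)))
        _ = C * D * (bump1 n).normed volume t := by ring
  have e1 : ∀ t, ∫ s in Ioc (0 : ℝ) 1, (bump1 n).normed volume t * f (s - t) * h s
      = (bump1 n).normed volume t * ∫ s in (0 : ℝ)..1, f s * h (s + t) := fun t => by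
    simp only [mul_assoc]
    rw [integral_const_mul]
    congr 1
    rw [← intervalIntegral.integral_of_le zero_le_one]
    have hper : Periodic (fun x => f x * h (x + t)) 1 := fun x => by
      simp only [hp x, show x + 1 + t = x + t + 1 by ring, hhp _]
    have := intervalIntegral.integral_comp_sub_right (a := (0 : ℝ)) (b := 1)
      (fun x => f x * h (x + t)) t
    simp only [sub_add_cancel] at this
    rw [this, show (1 : ℝ) - t = 0 - t + 1 by ring, hper.intervalIntegral_add_eq (0 - t) 0,
      zero_add]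
  calc ∫ s in (0 : ℝ)..1, sm n f s * h s
      = ∫ s in Ioc (0 : ℝ) 1, ∫ t, (bump1 n).normed volume t * f (s - t) * h s := by
        rw [intervalIntegral.integral_of_le zero_le_one]
        simp only [sm_apply, ← integral_mul_const]
    _ = ∫ t, ∫ s in Ioc (0 : ℝ) 1, (bump1 n).normed volume t * f (s - t) * h s :=
        integral_integral_swap hint
    _ = _ := by simp only [e1]

lemma integral_sm (n : ℕ) (hf : Measurable f) (hp : Periodic f 1) {C : ℝ}
    (hC : ∀ s, |f s| ≤ C) : ∫ s in (0 : ℝ)..1, sm n f s = ∫ s in (0 : ℝ)..1, f s := by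
  have h := integral_sm_mul n hf hp hC (h := fun _ => (1 : ℝ)) continuous_const fun _ => rfl
  simpa [integral_mul_const, (bump1 n).integral_normed] using h

variable {L : ℝ → ℝ} {P : ℝ}

/-- The mollified profile obeys the test inequality. -/
lemma testBound_sm (h : TestBound f L P) (n : ℕ) (hf : Measurable f) (hp : Periodic f 1) {C : ℝ}
    (hC : ∀ s, |f s| ≤ C) (hL : Measurable L) (hLp : Periodic L 1) (hCL : ∀ s, |L s| ≤ C) :
    TestBound (sm n f) (sm n L) P := by
  intro α hα hαp hαb
  have hd : Periodic (deriv α) 1 := fun s => by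
    rw [← deriv_comp_add_const, show (fun u => α (u + 1)) = α from funext hαp]
  have hdc : Continuous (deriv α) := hα.continuous_deriv le_rfl
  set g : ℝ → ℝ := fun s => Real.sqrt (1 - α s ^ 2) with hg
  have hgc : Continuous g := (continuous_const.sub (hα.continuous.pow 2)).sqrt
  have hgp : Periodic g 1 := fun s => by simp only [hg, hαp s]
  have hsf := (sm_contDiff n (locallyIntegrable_of_bound hf hC)).continuous
  have hsL := (sm_contDiff n (locallyIntegrable_of_bound hL hCL)).continuous
  have iA : IntervalIntegrable (fun s => sm n f s * deriv α s) volume 0 1 :=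
    (hsf.mul hdc).intervalIntegrable _ _
  have iB : IntervalIntegrable (fun s => sm n L s * Real.sqrt (1 - α s ^ 2)) volume 0 1 :=
    (hsL.mul hgc).intervalIntegrable _ _
  rw [intervalIntegral.integral_add iA iB,
    integral_sm_mul n hf hp hC hdc hd, integral_sm_mul n hL hLp hCL hgc hgp]
  have hshift : ∀ t, (∫ s in (0 : ℝ)..1, f s * deriv α (s + t))
      + (∫ s in (0 : ℝ)..1, L s * g (s + t)) ≤ P := fun t => by
    have hb := h (fun s => α (s + t)) (hα.comp (contDiff_id.add contDiff_const))
      (fun s => by simp only [show s + 1 + t = s + t + 1 by ring, hαp _]) fun s => hαb _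
    simp only [deriv_comp_add_const] at hb
    have i1 : IntervalIntegrable (fun s => f s * deriv α (s + t)) volume 0 1 :=
      (intervalIntegrable_of_bound hf hC 0 1).mul_continuousOn
        (hdc.comp (continuous_add_const t)).continuousOn
    have i2 : IntervalIntegrable (fun s => L s * g (s + t)) volume 0 1 :=
      (intervalIntegrable_of_bound hL hCL 0 1).mul_continuousOn
        (hgc.comp (continuous_add_const t)).continuousOn
    rwa [intervalIntegral.integral_add i1 i2] at hb
  have hI : ∀ {u k : ℝ → ℝ}, Measurable u → (∀ s, |u s| ≤ C) → Continuous k → Periodic k 1 →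
      Integrable fun t => (bump1 n).normed volume t * ∫ s in (0 : ℝ)..1, u s * k (s + t) := by
    intro u k hu hub hk hkp
    obtain ⟨D, hD⟩ := isBounded_iff_forall_norm_le.1 (hkp.isBounded_of_continuous one_ne_zero hk)
    have hm : StronglyMeasurable fun t => ∫ s in Ioc (0 : ℝ) 1, u s * k (s + t) :=
      (((hu.comp measurable_snd).mul (hk.measurable.comp
        (measurable_snd.add measurable_fst))).stronglyMeasurable.integral_prod_right'
        (ν := volume.restrict (Ioc (0 : ℝ) 1)) :)
    refine ((bump1 n).integrable_normed.mul_const (C * D)).mono'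
      (((bump1 n).continuous_normed.stronglyMeasurable).mul
        (by simpa only [intervalIntegral.integral_of_le zero_le_one] using hm)).aestronglyMeasurable
      (ae_of_all _ fun t => ?_)
    rw [norm_mul, Real.norm_of_nonneg ((bump1 n).nonneg_normed t)]
    refine mul_le_mul_of_nonneg_left ((intervalIntegral.norm_integral_le_of_norm_le_const
      (C := C * D) fun s _ => ?_).trans (le_of_eq (by simp))) ((bump1 n).nonneg_normed t)
    rw [norm_mul, Real.norm_eq_abs]
    exact mul_le_mul (hub s) (hD _ (mem_range_self _)) (norm_nonneg _)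
      ((abs_nonneg _).trans (hub 0))
  rw [← integral_add (hI hf hC hdc hd) (hI hL hCL hgc hgp)]
  calc ∫ t, ((bump1 n).normed volume t * (∫ s in (0 : ℝ)..1, f s * deriv α (s + t))
        + (bump1 n).normed volume t * ∫ s in (0 : ℝ)..1, L s * g (s + t))
      ≤ ∫ t, (bump1 n).normed volume t * P :=
        integral_mono ((hI hf hC hdc hd).add (hI hL hCL hgc hgp))
          ((bump1 n).integrable_normed.mul_const P) fun t => by
            rw [← mul_add]; exact mul_le_mul_of_nonneg_left (hshift t) ((bump1 n).nonneg_normed t)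
    _ = P := by rw [integral_mul_const, (bump1 n).integral_normed, one_mul]

/-- For smooth profiles the test inequality is the graph length bound. -/
lemma arcLength_le {F K : ℝ → ℝ} (h : TestBound F K P) (hF : ContDiff ℝ ∞ F)
    (hFp : Periodic F 1) (hK : ContDiff ℝ ∞ K) (hKp : Periodic K 1) (hK0 : ∀ s, 0 ≤ K s) :
    ∫ s in (0 : ℝ)..1, Real.sqrt (K s ^ 2 + deriv F s ^ 2) ≤ P := by
  have hF1 : ContDiff ℝ 1 F := hF.of_le (by norm_cast)
  have hd1 : ContDiff ℝ 1 (deriv F) :=
    ((contDiff_infty_iff_deriv.1 hF).2).of_le (by norm_cast)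
  have hK1 : ContDiff ℝ 1 K := hK.of_le (by norm_cast)
  have hdp : Periodic (deriv F) 1 := fun s => by
    rw [← deriv_comp_add_const, show (fun u => F (u + 1)) = F from funext hFp]
  refine le_of_forall_pos_le_add fun e he => ?_
  set δ := e ^ 2 with hδdef
  have hδ : 0 < δ := by positivity
  set N : ℝ → ℝ := fun s => K s ^ 2 + deriv F s ^ 2 + δ with hN
  have hN0 : ∀ s, 0 < N s := fun s => by positivity
  have hNc : ContDiff ℝ 1 N := ((hK1.pow 2).add (hd1.pow 2)).add contDiff_const
  have hS : ContDiff ℝ 1 fun s => Real.sqrt (N s) := hNc.sqrt fun s => (hN0 s).ne'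
  set α : ℝ → ℝ := fun s => -deriv F s / Real.sqrt (N s) with hα
  have hαc : ContDiff ℝ 1 α := hd1.neg.div hS fun s => (Real.sqrt_pos.2 (hN0 s)).ne'
  have hαp : Periodic α 1 := fun s => by simp only [hα, hN, hdp s, hKp s]
  have hαb : ∀ s, |α s| < 1 := fun s => by
    rw [hα, abs_div, abs_neg, abs_of_nonneg (Real.sqrt_nonneg _),
      div_lt_one (Real.sqrt_pos.2 (hN0 s)), ← Real.sqrt_sq_eq_abs]
    exact Real.sqrt_lt_sqrt (sq_nonneg _)
      (show deriv F s ^ 2 < K s ^ 2 + deriv F s ^ 2 + δ by linarith [sq_nonneg (K s)])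
  have hb := h α hαc hαp hαb
  have iF : IntervalIntegrable (deriv F) volume 0 1 :=
    (hd1.continuous).intervalIntegrable _ _
  have iA : IntervalIntegrable (deriv α) volume 0 1 :=
    (hαc.continuous_deriv le_rfl).intervalIntegrable _ _
  have parts := intervalIntegral.integral_mul_deriv_eq_deriv_mul (a := (0 : ℝ)) (b := 1)
    (u := F) (v := α) (fun s _ => (hF1.differentiable one_ne_zero s).hasDerivAt)
    (fun s _ => (hαc.differentiable one_ne_zero s).hasDerivAt) iF iA
  rw [show F 1 = F 0 by simpa using hFp 0, show α 1 = α 0 by simpa using hαp 0, sub_self,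
    zero_sub] at parts
  have cg : Continuous fun s => K s * Real.sqrt (1 - α s ^ 2) :=
    hK1.continuous.mul (continuous_const.sub (hαc.continuous.pow 2)).sqrt
  have cD : Continuous fun s => F s * deriv α s :=
    hF1.continuous.mul (hαc.continuous_deriv le_rfl)
  rw [intervalIntegral.integral_add (cD.intervalIntegrable _ _) (cg.intervalIntegrable _ _),
    parts] at hb
  have hpt : ∀ s, Real.sqrt (K s ^ 2 + deriv F s ^ 2) - e
      ≤ -(deriv F s * α s) + K s * Real.sqrt (1 - α s ^ 2) := by
    intro s
    set S := Real.sqrt (N s) with hSdef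
    have hSpos : 0 < S := Real.sqrt_pos.2 (hN0 s)
    have hS2 : S ^ 2 = K s ^ 2 + deriv F s ^ 2 + δ := Real.sq_sqrt (hN0 s).le
    have e1 : 1 - α s ^ 2 = (K s ^ 2 + δ) / S ^ 2 := by
      simp only [hα, div_pow, neg_sq, ← hSdef]
      field_simp
      linarith
    rw [e1, Real.sqrt_div (by positivity), Real.sqrt_sq hSpos.le]
    have hk : K s ≤ Real.sqrt (K s ^ 2 + δ) := Real.le_sqrt_of_sq_le (by linarith)
    have hq : Real.sqrt (K s ^ 2 + deriv F s ^ 2) ≤ S := by
      rw [hSdef]; exact Real.sqrt_le_sqrt (by simp only [hN]; linarith)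
    have hSe : S ≤ Real.sqrt (K s ^ 2 + deriv F s ^ 2) + e := by
      rw [hSdef, Real.sqrt_le_left (by positivity)]
      simp only [hN, hδdef]
      nlinarith [Real.sq_sqrt (show (0 : ℝ) ≤ K s ^ 2 + deriv F s ^ 2 by positivity),
        Real.sqrt_nonneg (K s ^ 2 + deriv F s ^ 2)]
    have e2 : -(deriv F s * α s) + K s * (Real.sqrt (K s ^ 2 + δ) / S)
        = (deriv F s ^ 2 + K s * Real.sqrt (K s ^ 2 + δ)) / S := by
      simp only [hα, ← hSdef]; ring
    rw [e2, le_div_iff₀ hSpos]
    nlinarith [mul_le_mul_of_nonneg_left hk (hK0 s),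
      Real.sq_sqrt (show (0 : ℝ) ≤ K s ^ 2 + deriv F s ^ 2 by positivity),
      Real.sqrt_nonneg (K s ^ 2 + deriv F s ^ 2)]
  have c0 : Continuous fun s => Real.sqrt (K s ^ 2 + deriv F s ^ 2) :=
    ((hK1.continuous.pow 2).add (hd1.continuous.pow 2)).sqrt
  have cA : Continuous fun s => -(deriv F s * α s) := (hd1.continuous.mul hαc.continuous).neg
  have hm := intervalIntegral.integral_mono_on (μ := volume) (zero_le_one' ℝ)
    ((c0.sub continuous_const).intervalIntegrable 0 1) ((cA.add cg).intervalIntegrable 0 1)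
    fun s _ => hpt s
  simp only [Pi.add_apply, Pi.sub_apply] at hm
  rw [intervalIntegral.integral_sub (μ := volume) (c0.intervalIntegrable _ _)
      intervalIntegrable_const,
    intervalIntegral.integral_add (cA.intervalIntegrable _ _) (cg.intervalIntegrable _ _),
    intervalIntegral.integral_neg] at hm
  simp at hm
  linarith

/-- Smooth approximations of a profile and its weight, with the graph length bound. -/
structure IsSmoothing (f L : ℝ → ℝ) (P C : ℝ) (F K : ℕ → ℝ → ℝ) : Prop where
  smooth : ∀ n, ContDiff ℝ ∞ (F n)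
  contK : ∀ n, Continuous (K n)
  periodicF : ∀ n, Periodic (F n) 1
  periodicK : ∀ n, Periodic (K n) 1
  memK : ∀ n s, K n s ∈ Icc 0 C
  absF : ∀ n s, |F n s| ≤ C
  memF : ∀ {a b : ℝ}, (∀ᵐ s : ℝ, f s ∈ Icc a b) → ∀ n s, F n s ∈ Icc a b
  mass : ∀ n, ∫ s in (0 : ℝ)..1, F n s = ∫ s in (0 : ℝ)..1, f s
  limF : ∀ᵐ s : ℝ, Tendsto (fun n => F n s) atTop (𝓝 (f s))
  limK : ∀ᵐ s : ℝ, Tendsto (fun n => K n s) atTop (𝓝 (L s))
  arc : ∀ n p, ∫ s in p..(p + 1), Real.sqrt (K n s ^ 2 + deriv (F n) s ^ 2) ≤ P

/-- A bounded profile obeying the test inequality has smoothings. -/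
theorem exists_smoothing (h : TestBound f L P) (hf : Measurable f) (hp : Periodic f 1) {C : ℝ}
    (hC : ∀ s, |f s| ≤ C) (hL : Measurable L) (hLp : Periodic L 1) (hCL : ∀ s, L s ∈ Icc 0 C) :
    ∃ F K : ℕ → ℝ → ℝ, IsSmoothing f L P C F K := by
  have hCL' : ∀ s, |L s| ≤ C := fun s => by rw [abs_of_nonneg (hCL s).1]; exact (hCL s).2
  have hlf := locallyIntegrable_of_bound hf hC
  have hlL := locallyIntegrable_of_bound hL hCL'
  have hKm : ∀ n s, sm n L s ∈ Icc 0 C := fun n => sm_mem n hL hCL' (ae_of_all _ hCL)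
  refine ⟨fun n => sm n f, fun n => sm n L, fun n => sm_contDiff n hlf,
    fun n => (sm_contDiff n hlL).continuous, fun n => sm_periodic n hp,
    fun n => sm_periodic n hLp, hKm, fun n s => abs_le.2 ?_, fun hab n => sm_mem n hf hC hab,
    fun n => integral_sm n hf hp hC, ae_tendsto_sm hlf, ae_tendsto_sm hlL, fun n p => ?_⟩
  · exact sm_mem n hf hC (ae_of_all _ fun t => abs_le.1 (hC t)) s
  · have hper : Periodic (fun s => Real.sqrt (sm n L s ^ 2 + deriv (sm n f) s ^ 2)) 1 := fun s => by
      have hd : deriv (sm n f) (s + 1) = deriv (sm n f) s := by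
        rw [← deriv_comp_add_const, show (fun u => sm n f (u + 1)) = sm n f from
          funext (sm_periodic n hp)]
      simp only [sm_periodic n hLp s, hd]
    rw [hper.intervalIntegral_add_eq p 0, zero_add]
    exact arcLength_le (testBound_sm h n hf hp hC hL hLp hCL') (sm_contDiff n hlf)
      (sm_periodic n hp) (sm_contDiff n hlL) (sm_periodic n hLp) fun s => (hKm n s).1

end Vale.Agent.P232.BallUniq
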